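import Mathlib

/-!
P066: pointwise identities between pinned generating functions, in any commutative ring.
The colours are `Fin N`; a function of two pins is indexed by (older, newer).
-/

namespace Vale.Agent.P066

open Finset

variable {N : ℕ} {S : Type*} [CommRing S]

/-- product of `1 + a * x i` over a set of colours -/
def lp (x : Fin N → S) (I : Finset (Fin N)) (a : S) : S := ∏ i ∈ I, (1 + a * x i)

/-- the weight of one ascent -/
def qq (q : S) (a b : Fin N) : S := if a < b then q else 1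

/-- generating series of the one-pin basis -/
def Bp (q : S) (x : Fin N → S) (z : S) (c : Fin N) : S :=
  x c * lp x (Iio c) (q * z) * lp x (Ioi c) z

/-- product form with lower pin `a` and upper pin `b` -/
def Up (q : S) (x : Fin N → S) (u v : S) (a b : Fin N) : S :=
  x a * (1 + q * u * x a) * x b * (1 + v * x b) * lp x (Iio a) (q * u) * lp x (Iio a) (q * v)
    * lp x (Ioo a b) (q * u) * lp x (Ioo a b) v * lp x (Ioi b) u * lp x (Ioi b) v

/-- symmetric product form -/
def Qp (q : S) (x : Fin N → S) (w : S) (a b : Fin N) : S :=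
  x a * x b * lp x (Iio a) (q * q * w) * lp x (Ioo a b) (q * w) * lp x (Ioi b) w

/-- generating series of the one-column two-pin states -/
def Pp (q : S) (x : Fin N → S) (w : S) (c d : Fin N) : S :=
  if c < d then q * Qp q x w c d else if d < c then Qp q x w d c else 0

/-- the two-parameter series, multiplied by `z - w` -/
def Fp (q : S) (x : Fin N → S) (z w : S) (c d : Fin N) : S :=
  if c < d then (z - w) * (q * Up q x w z c d)
  else if d < c then (z - q * w) * Up q x z w d c + (q - 1) * w * Up q x w z d c else 0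

/-- add a vertex adjacent to the pin -/
def opD (q : S) (x : Fin N → S) (V : Fin N → S) (d e : Fin N) : S :=
  if d = e then 0 else V d * x e * qq q d e

/-- add a vertex adjacent to both pins and forget the older pin -/
def opT (q : S) (x : Fin N → S) (V : Fin N → Fin N → S) (d e : Fin N) : S :=
  if d = e then 0
  else x e * qq q d e * ∑ c ∈ univ.filter (fun c => c ≠ d ∧ c ≠ e), V c d * qq q c e

/-- forget the older pin -/
def opC (V : Fin N → Fin N → S) (d : Fin N) : S :=
  ∑ c ∈ univ.filter (fun c => c ≠ d), V c d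

/-- the commutator -/
def opR (q : S) (x : Fin N → S) (V : Fin N → Fin N → S) (d e : Fin N) : S :=
  opT q x V d e - opD q x (opC V) d e

variable (q : S) (x : Fin N → S)

theorem opR_self (V : Fin N → Fin N → S) (d : Fin N) : opR q x V d d = 0 := by
  simp [opR, opT, opD]

theorem opR_ne (V : Fin N → Fin N → S) {d e : Fin N} (h : d ≠ e) :
    opR q x V d e
      = x e * qq q d e * ((q - 1) * (∑ c ∈ (Iio e).erase d, V c d) - V e d) := by
  have h1 : opC V d = V e d + ∑ c ∈ univ.filter (fun c => c ≠ d ∧ c ≠ e), V c d := by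
    rw [opC, ← add_sum_erase _ _ (mem_filter.2 ⟨mem_univ e, h.symm⟩)]
    congr 1
    apply sum_congr ?_ (fun _ _ => rfl)
    ext c
    simp [and_comm]
  have h2 : (q - 1) * (∑ c ∈ (Iio e).erase d, V c d)
      = ∑ c ∈ univ.filter (fun c => c ≠ d ∧ c ≠ e), V c d * qq q c e
        - ∑ c ∈ univ.filter (fun c => c ≠ d ∧ c ≠ e), V c d := by
    have hs : (Iio e).erase d
        = (univ.filter (fun c : Fin N => c ≠ d ∧ c ≠ e)).filter (fun c => c < e) := by
      ext c
      simp only [mem_erase, mem_Iio, mem_filter, mem_univ, true_and]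
      exact ⟨fun hc => ⟨⟨hc.1, ne_of_lt hc.2⟩, hc.2⟩, fun hc => ⟨hc.1.1, hc.2⟩⟩
    rw [← sum_sub_distrib, hs, mul_sum, sum_filter]
    apply sum_congr rfl
    intro c _
    unfold qq
    split_ifs <;> ring
  simp only [opR, opT, opD, if_neg h]
  rw [h1, h2]
  ring

theorem lp_mul (I : Finset (Fin N)) (a b : S) :
    ∏ i ∈ I, ((1 + a * x i) * (1 + b * x i)) = lp x I a * lp x I b := prod_mul_distrib

theorem lp_Iio {c d : Fin N} (h : c < d) (a : S) :
    lp x (Iio d) a = lp x (Iio c) a * (1 + a * x c) * lp x (Ioo c d) a := by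
  have hd : Iio d = insert c (Iio c ∪ Ioo c d) := by
    ext i
    simp only [mem_Iio, mem_insert, mem_union, mem_Ioo]
    omega
  have h1 : c ∉ Iio c ∪ Ioo c d := by simp
  have h2 : Disjoint (Iio c) (Ioo c d) := by
    rw [disjoint_left]
    intro i h1 h2
    simp only [mem_Iio, mem_Ioo] at h1 h2
    omega
  rw [lp, hd, prod_insert h1, prod_union h2, lp, lp]
  ring

theorem lp_Ioi {c d : Fin N} (h : c < d) (a : S) :
    lp x (Ioi c) a = lp x (Ioo c d) a * (1 + a * x d) * lp x (Ioi d) a := by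
  have hd : Ioi c = insert d (Ioo c d ∪ Ioi d) := by
    ext i
    simp only [mem_Ioi, mem_insert, mem_union, mem_Ioo]
    omega
  have h1 : d ∉ Ioo c d ∪ Ioi d := by simp
  have h2 : Disjoint (Ioo c d) (Ioi d) := by
    rw [disjoint_left]
    intro i h1 h2
    simp only [mem_Ioi, mem_Ioo] at h1 h2
    omega
  rw [lp, hd, prod_insert h1, prod_union h2, lp, lp]
  ring

theorem lp_Ioo {b c d : Fin N} (h1 : b < c) (h2 : c < d) (a : S) :
    lp x (Ioo b d) a = lp x (Ioo b c) a * (1 + a * x c) * lp x (Ioo c d) a := by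
  have hd : Ioo b d = insert c (Ioo b c ∪ Ioo c d) := by
    ext i
    simp only [mem_insert, mem_union, mem_Ioo]
    omega
  have h1 : c ∉ Ioo b c ∪ Ioo c d := by simp
  have h2 : Disjoint (Ioo b c) (Ioo c d) := by
    rw [disjoint_left]
    intro i h1 h2
    simp only [mem_Ioo] at h1 h2
    omega
  rw [lp, hd, prod_insert h1, prod_union h2, lp, lp]
  ring

theorem lp_univ (c : Fin N) (a : S) :
    lp x univ a = lp x (Iio c) a * (1 + a * x c) * lp x (Ioi c) a := by
  have hd : (univ : Finset (Fin N)) = insert c (Iio c ∪ Ioi c) := by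
    ext i
    simp only [mem_univ, mem_insert, mem_union, mem_Iio, mem_Ioi, true_iff]
    omega
  have h1 : c ∉ Iio c ∪ Ioi c := by simp
  have h2 : Disjoint (Iio c) (Ioi c) := by
    rw [disjoint_left]
    intro i h1 h2
    simp only [mem_Iio, mem_Ioi] at h1 h2
    omega
  rw [lp, hd, prod_insert h1, prod_union h2, lp, lp]
  ring

/-- telescoping over an ordered set of colours -/
theorem telescope (s : Finset (Fin N)) (k : S) (wt f g : Fin N → S)
    (h : ∀ c ∈ s, f c - g c = k * wt c) :
    k * (∑ c ∈ s, wt c * (∏ i ∈ s with i < c, f i) * (∏ i ∈ s with c < i, g i))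
      = ∏ i ∈ s, f i - ∏ i ∈ s, g i := by
  have h2 := prod_add_ordered s g (fun i => f i - g i)
  simp only [add_sub_cancel] at h2
  rw [h2, add_sub_cancel_left, mul_sum]
  apply sum_congr rfl
  intro c hc
  rw [h c hc]
  ring

theorem filter_Iio_lt {c d : Fin N} (h : c < d) : (Iio d).filter (fun i => i < c) = Iio c := by
  ext i
  simp only [mem_filter, mem_Iio]
  omega

theorem filter_Iio_gt (c d : Fin N) : (Iio d).filter (fun i => c < i) = Ioo c d := by
  ext i
  simp only [mem_filter, mem_Iio, mem_Ioo]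
  omega

theorem filter_Ioi_gt {c d : Fin N} (h : d < c) : (Ioi d).filter (fun i => c < i) = Ioi c := by
  ext i
  simp only [mem_filter, mem_Ioi]
  omega

theorem filter_Ioi_lt (c d : Fin N) : (Ioi d).filter (fun i => i < c) = Ioo d c := by
  ext i
  simp only [mem_filter, mem_Ioi, mem_Ioo]

theorem filter_Ioo_lt {b c d : Fin N} (h : c < d) :
    (Ioo b d).filter (fun i => i < c) = Ioo b c := by
  ext i
  simp only [mem_filter, mem_Ioo]
  omega

theorem filter_Ioo_gt {b c d : Fin N} (h : b < c) :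
    (Ioo b d).filter (fun i => c < i) = Ioo c d := by
  ext i
  simp only [mem_filter, mem_Ioo]
  omega

theorem sumU_below (u v : S) (d : Fin N) :
    (q - 1) * v * (∑ c ∈ Iio d, Up q x u v c d)
      = x d * (1 + v * x d) * lp x (Ioi d) u * lp x (Ioi d) v
        * (lp x (Iio d) (q * u) * lp x (Iio d) (q * v) - lp x (Iio d) (q * u) * lp x (Iio d) v) := by
  rw [← lp_mul, ← lp_mul, ← telescope (Iio d) ((q - 1) * v) (fun c => x c * (1 + q * u * x c))
    _ _ (fun c _ => by ring), mul_sum, mul_sum, mul_sum]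
  apply sum_congr rfl
  intro c hc
  rw [filter_Iio_lt (mem_Iio.1 hc), filter_Iio_gt, lp_mul, lp_mul, Up]
  ring

theorem sumU_below' (u v : S) {d e : Fin N} (h : e < d) :
    (q - 1) * v * (∑ c ∈ Iio e, Up q x u v c d)
      = x d * (1 + v * x d) * lp x (Ioi d) u * lp x (Ioi d) v * (1 + q * u * x e) * (1 + v * x e)
        * lp x (Ioo e d) (q * u) * lp x (Ioo e d) v
        * (lp x (Iio e) (q * u) * lp x (Iio e) (q * v) - lp x (Iio e) (q * u) * lp x (Iio e) v) := by
  rw [← lp_mul, ← lp_mul, ← telescope (Iio e) ((q - 1) * v) (fun c => x c * (1 + q * u * x c))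
    _ _ (fun c _ => by ring), mul_sum, mul_sum, mul_sum]
  apply sum_congr rfl
  intro c hc
  rw [filter_Iio_lt (mem_Iio.1 hc), filter_Iio_gt, lp_mul, lp_mul, Up,
    lp_Ioo x (mem_Iio.1 hc) h (q * u), lp_Ioo x (mem_Iio.1 hc) h v]
  ring

theorem sumU_mid (u v : S) (d e : Fin N) :
    (q - 1) * u * (∑ c ∈ Ioo d e, Up q x u v d c)
      = x d * (1 + q * u * x d) * lp x (Iio d) (q * u) * lp x (Iio d) (q * v)
        * (1 + u * x e) * (1 + v * x e) * lp x (Ioi e) u * lp x (Ioi e) v
        * (lp x (Ioo d e) (q * u) * lp x (Ioo d e) v - lp x (Ioo d e) u * lp x (Ioo d e) v) := by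
  rw [← lp_mul, ← lp_mul, ← telescope (Ioo d e) ((q - 1) * u) (fun c => x c * (1 + v * x c))
    _ _ (fun c _ => by ring), mul_sum, mul_sum, mul_sum]
  apply sum_congr rfl
  intro c hc
  rw [filter_Ioo_lt (mem_Ioo.1 hc).2, filter_Ioo_gt (mem_Ioo.1 hc).1, lp_mul, lp_mul, Up,
    lp_Ioi x (mem_Ioo.1 hc).2 u, lp_Ioi x (mem_Ioo.1 hc).2 v]
  ring

theorem sumU_above (u v : S) (d : Fin N) :
    (q - 1) * u * (∑ c ∈ Ioi d, Up q x u v d c)
      = x d * (1 + q * u * x d) * lp x (Iio d) (q * u) * lp x (Iio d) (q * v)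
        * (lp x (Ioi d) (q * u) * lp x (Ioi d) v - lp x (Ioi d) u * lp x (Ioi d) v) := by
  rw [← lp_mul, ← lp_mul, ← telescope (Ioi d) ((q - 1) * u) (fun c => x c * (1 + v * x c))
    _ _ (fun c _ => by ring), mul_sum, mul_sum, mul_sum]
  apply sum_congr rfl
  intro c hc
  rw [filter_Ioi_gt (mem_Ioi.1 hc), filter_Ioi_lt, lp_mul, lp_mul, Up]
  ring

theorem sumQ_below (w : S) (d : Fin N) :
    (q - 1) * q * w * (∑ c ∈ Iio d, Qp q x w c d)
      = x d * lp x (Ioi d) w * (lp x (Iio d) (q * q * w) - lp x (Iio d) (q * w)) := by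
  simp only [lp]
  rw [← telescope (Iio d) ((q - 1) * q * w) x _ _ (fun c _ => by ring), mul_sum, mul_sum, mul_sum]
  apply sum_congr rfl
  intro c hc
  rw [filter_Iio_lt (mem_Iio.1 hc), filter_Iio_gt, Qp, lp, lp, lp]
  ring

theorem sumQ_below' (w : S) {d e : Fin N} (h : e < d) :
    (q - 1) * q * w * (∑ c ∈ Iio e, Qp q x w c d)
      = x d * lp x (Ioi d) w * (1 + q * w * x e) * lp x (Ioo e d) (q * w)
        * (lp x (Iio e) (q * q * w) - lp x (Iio e) (q * w)) := by
  conv_rhs => rw [lp, lp, lp, lp]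
  rw [← telescope (Iio e) ((q - 1) * q * w) x _ _ (fun c _ => by ring), mul_sum, mul_sum, mul_sum]
  apply sum_congr rfl
  intro c hc
  rw [filter_Iio_lt (mem_Iio.1 hc), filter_Iio_gt, Qp, lp_Ioo x (mem_Iio.1 hc) h, lp, lp, lp, lp]
  ring

theorem sumQ_mid (w : S) (d e : Fin N) :
    (q - 1) * w * (∑ c ∈ Ioo d e, Qp q x w d c)
      = x d * lp x (Iio d) (q * q * w) * (1 + w * x e) * lp x (Ioi e) w
        * (lp x (Ioo d e) (q * w) - lp x (Ioo d e) w) := by
  conv_rhs => rw [lp, lp, lp, lp]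
  rw [← telescope (Ioo d e) ((q - 1) * w) x _ _ (fun c _ => by ring), mul_sum, mul_sum, mul_sum]
  apply sum_congr rfl
  intro c hc
  rw [filter_Ioo_lt (mem_Ioo.1 hc).2, filter_Ioo_gt (mem_Ioo.1 hc).1, Qp,
    lp_Ioi x (mem_Ioo.1 hc).2, lp, lp, lp, lp]
  ring

theorem sumQ_above (w : S) (d : Fin N) :
    (q - 1) * w * (∑ c ∈ Ioi d, Qp q x w d c)
      = x d * lp x (Iio d) (q * q * w) * (lp x (Ioi d) (q * w) - lp x (Ioi d) w) := by
  simp only [lp]
  rw [← telescope (Ioi d) ((q - 1) * w) x _ _ (fun c _ => by ring), mul_sum, mul_sum, mul_sum]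
  apply sum_congr rfl
  intro c hc
  rw [filter_Ioi_gt (mem_Ioi.1 hc), filter_Ioi_lt, Qp, lp, lp, lp]
  ring

theorem Fp_diag (w : S) (c d : Fin N) :
    Fp q x (q * w) w c d = (q - 1) * w * (lp x univ (q * w) * Pp q x w c d) := by
  unfold Fp Pp
  rcases lt_trichotomy c d with h | h | h
  · rw [if_pos h, if_pos h, lp_univ x c (q * w), lp_Ioi x h (q * w), Up, Qp, mul_assoc q q w]
    ring
  · subst h
    simp
  · rw [if_neg h.asymm, if_pos h, if_neg h.asymm, if_pos h, lp_univ x d (q * w),
      lp_Ioi x h (q * w), Up, Up, Qp, mul_assoc q q w]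
    ring

theorem Fp_eq (z : S) (c d : Fin N) : Fp q x z z c d = 0 := by
  unfold Fp
  split_ifs <;> ring

theorem opR_Fp (z w : S) (d e : Fin N) :
    (z - w) * z * opR q x (Fp q x z w) d e
      = -(z - q * w) * Fp q x w z d e + (q - 1) * z * Fp q x z w d e
        - q * (z - w) ^ 2 * lp x univ z * opD q x (Bp q x w) d e := by
  rcases lt_trichotomy d e with h | h | h
  · rw [opR_ne q x _ h.ne]
    have hs : (Iio e).erase d = Iio d ∪ Ioo d e := by
      ext i
      simp only [mem_erase, mem_Iio, mem_union, mem_Ioo]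
      omega
    have hd : Disjoint (Iio d) (Ioo d e) := by
      rw [disjoint_left]
      intro i h1 h2
      simp only [mem_Iio, mem_Ioo] at h1 h2
      omega
    have e1 : ∑ c ∈ Iio d, Fp q x z w c d = (z - w) * q * ∑ c ∈ Iio d, Up q x w z c d := by
      rw [mul_sum]
      apply sum_congr rfl
      intro c hc
      simp [Fp, mem_Iio.1 hc, mul_assoc]
    have e2 : ∑ c ∈ Ioo d e, Fp q x z w c d
        = (z - q * w) * ∑ c ∈ Ioo d e, Up q x z w d c
          + (q - 1) * w * ∑ c ∈ Ioo d e, Up q x w z d c := by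
      rw [mul_sum, mul_sum, ← sum_add_distrib]
      apply sum_congr rfl
      intro c hc
      simp [Fp, (mem_Ioo.1 hc).1.asymm, (mem_Ioo.1 hc).1]
    rw [hs, sum_union hd, e1, e2]
    have h1 := sumU_below q x w z d
    have h2 := sumU_mid q x z w d e
    have h3 := sumU_mid q x w z d e
    simp only [Fp, opD, Bp, Up, qq, if_pos h, if_neg h.asymm, if_neg h.ne,
      lp_univ x d z, lp_Ioi x h] at h1 h2 h3 ⊢
    linear_combination
      (z - w) * x e * q * ((z - w) * q * h1 + (z - q * w) * h2 + (q - 1) * z * h3)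
  · subst h
    simp [opR_self, Fp, opD]
  · rw [opR_ne q x _ h.ne']
    have hs : (Iio e).erase d = Iio e := erase_eq_of_notMem (by simp only [mem_Iio]; omega)
    have e1 : ∑ c ∈ Iio e, Fp q x z w c d = (z - w) * q * ∑ c ∈ Iio e, Up q x w z c d := by
      rw [mul_sum]
      apply sum_congr rfl
      intro c hc
      simp [Fp, (mem_Iio.1 hc).trans h, mul_assoc]
    rw [hs, e1]
    have h1 := sumU_below' q x w z h
    simp only [Fp, opD, Bp, Up, qq, if_pos h, if_neg h.asymm, if_neg h.ne',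
      lp_univ x d z, lp_Iio x h] at h1 ⊢
    linear_combination (z - w) * x e * ((z - w) * q * h1)

theorem opR_Pp (w : S) (d e : Fin N) :
    w * opR q x (Pp q x w) d e = Pp q x w d e - opD q x (Bp q x w) d e := by
  rcases lt_trichotomy d e with h | h | h
  · rw [opR_ne q x _ h.ne]
    have hs : (Iio e).erase d = Iio d ∪ Ioo d e := by
      ext i
      simp only [mem_erase, mem_Iio, mem_union, mem_Ioo]
      omega
    have hd : Disjoint (Iio d) (Ioo d e) := by
      rw [disjoint_left]
      intro i h1 h2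
      simp only [mem_Iio, mem_Ioo] at h1 h2
      omega
    have e1 : ∑ c ∈ Iio d, Pp q x w c d = q * ∑ c ∈ Iio d, Qp q x w c d := by
      rw [mul_sum]
      apply sum_congr rfl
      intro c hc
      simp [Pp, mem_Iio.1 hc]
    have e2 : ∑ c ∈ Ioo d e, Pp q x w c d = ∑ c ∈ Ioo d e, Qp q x w d c := by
      apply sum_congr rfl
      intro c hc
      simp [Pp, (mem_Ioo.1 hc).1.asymm, (mem_Ioo.1 hc).1]
    rw [hs, sum_union hd, e1, e2]
    have h1 := sumQ_below q x w d
    have h2 := sumQ_mid q x w d e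
    simp only [Pp, opD, Bp, Qp, qq, if_pos h, if_neg h.asymm, if_neg h.ne,
      lp_Ioi x h] at h1 h2 ⊢
    linear_combination x e * q * (h1 + h2)
  · subst h
    simp [opR_self, Pp, opD]
  · rw [opR_ne q x _ h.ne']
    have hs : (Iio e).erase d = Iio e := erase_eq_of_notMem (by simp only [mem_Iio]; omega)
    have e1 : ∑ c ∈ Iio e, Pp q x w c d = q * ∑ c ∈ Iio e, Qp q x w c d := by
      rw [mul_sum]
      apply sum_congr rfl
      intro c hc
      simp [Pp, (mem_Iio.1 hc).trans h]
    rw [hs, e1]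
    have h1 := sumQ_below' q x w h
    simp only [Pp, opD, Bp, Qp, qq, if_pos h, if_neg h.asymm, if_neg h.ne',
      lp_Iio x h] at h1 ⊢
    linear_combination x e * h1

theorem opC_split (V : Fin N → Fin N → S) (d : Fin N) :
    opC V d = (∑ c ∈ Iio d, V c d) + ∑ c ∈ Ioi d, V c d := by
  rw [opC, ← sum_union]
  · apply sum_congr ?_ (fun _ _ => rfl)
    ext i
    simp only [mem_filter, mem_univ, true_and, mem_union, mem_Iio, mem_Ioi]
    omega
  · rw [disjoint_left]
    intro i h1 h2
    simp only [mem_Iio, mem_Ioi] at h1 h2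
    omega

theorem opC_Fp (z w : S) (d : Fin N) :
    z * (1 - q) * opC (Fp q x z w) d
      = (q * (z - w) * lp x univ z - (z - q * w) * lp x univ (q * z)) * Bp q x w d
        + (1 - q) * z * lp x univ (q * w) * Bp q x z d := by
  rw [opC_split]
  have e1 : ∑ c ∈ Iio d, Fp q x z w c d = (z - w) * q * ∑ c ∈ Iio d, Up q x w z c d := by
    rw [mul_sum]
    apply sum_congr rfl
    intro c hc
    simp [Fp, mem_Iio.1 hc, mul_assoc]
  have e2 : ∑ c ∈ Ioi d, Fp q x z w c d
      = (z - q * w) * ∑ c ∈ Ioi d, Up q x z w d c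
        + (q - 1) * w * ∑ c ∈ Ioi d, Up q x w z d c := by
    rw [mul_sum, mul_sum, ← sum_add_distrib]
    apply sum_congr rfl
    intro c hc
    simp [Fp, (mem_Ioi.1 hc).asymm, mem_Ioi.1 hc]
  rw [e1, e2, lp_univ x d z, lp_univ x d (q * z), lp_univ x d (q * w), Bp, Bp]
  linear_combination -(z - w) * q * sumU_below q x w z d - (z - q * w) * sumU_above q x z w d
    - (q - 1) * z * sumU_above q x w z d

theorem opC_Pp (w : S) (d : Fin N) :
    w * (1 - q) * opC (Pp q x w) d = Bp q x w d - Bp q x (q * w) d := by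
  rw [opC_split]
  have e1 : ∑ c ∈ Iio d, Pp q x w c d = q * ∑ c ∈ Iio d, Qp q x w c d := by
    rw [mul_sum]
    apply sum_congr rfl
    intro c hc
    simp [Pp, mem_Iio.1 hc]
  have e2 : ∑ c ∈ Ioi d, Pp q x w c d = ∑ c ∈ Ioi d, Qp q x w d c := by
    apply sum_congr rfl
    intro c hc
    simp [Pp, (mem_Ioi.1 hc).asymm, mem_Ioi.1 hc]
  rw [e1, e2, Bp, Bp, ← mul_assoc q q w]
  linear_combination -(sumQ_below q x w d) - sumQ_above q x w d

/-- at `w = 0` the two-parameter series adds an adjacent vertex to the one-pin series -/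
theorem Fp_zero (z : S) (c d : Fin N) : Fp q x z 0 c d = z * opD q x (Bp q x z) c d := by
  have h0 : ∀ I, lp x I (0 : S) = 1 := fun I => by simp [lp]
  rcases lt_trichotomy c d with h | h | h
  · simp only [Fp, opD, Bp, Up, qq, if_pos h, if_neg h.ne, lp_Ioi x h, mul_zero, h0]
    ring
  · subst h
    simp [Fp, opD]
  · simp only [Fp, opD, Bp, Up, qq, if_pos h, if_neg h.asymm, if_neg h.ne', lp_Iio x h,
      mul_zero, h0]
    ring

end Vale.Agent.P066
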