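import Mathlib
import Vale.Agent.P066.Point

/-!
P066: the coefficient families of the two-parameter series and their recurrences.
-/

namespace Vale.Agent.P066

open Finset Polynomial

section naturality

variable {N : ℕ} {S T : Type*} [CommRing S] [CommRing T] (f : S →+* T) (q : S) (x : Fin N → S)

theorem map_lp (I : Finset (Fin N)) (a : S) :
    f (lp x I a) = lp (fun i => f (x i)) I (f a) := by simp [lp]

theorem map_qq (a b : Fin N) : f (qq q a b) = qq (f q) a b := by
  unfold qq; split_ifs <;> simp

theorem map_Bp (z : S) (c : Fin N) :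
    f (Bp q x z c) = Bp (f q) (fun i => f (x i)) (f z) c := by
  simp [Bp, map_lp]

theorem map_Up (u v : S) (a b : Fin N) :
    f (Up q x u v a b) = Up (f q) (fun i => f (x i)) (f u) (f v) a b := by
  simp [Up, map_lp]

theorem map_Pp (w : S) (c d : Fin N) :
    f (Pp q x w c d) = Pp (f q) (fun i => f (x i)) (f w) c d := by
  unfold Pp; split_ifs <;> simp [Qp, map_lp]

theorem map_Fp (z w : S) (c d : Fin N) :
    f (Fp q x z w c d) = Fp (f q) (fun i => f (x i)) (f z) (f w) c d := by
  unfold Fp; split_ifs <;> simp [map_Up]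

theorem map_opD (V : Fin N → S) (d e : Fin N) :
    f (opD q x V d e) = opD (f q) (fun i => f (x i)) (fun c => f (V c)) d e := by
  unfold opD; split_ifs <;> simp [map_qq]

theorem opR_smul (k : S) (V : Fin N → Fin N → S) (d e : Fin N) :
    opR q x (fun c c' => k * V c c') d e = k * opR q x V d e := by
  unfold opR opT opD opC
  split_ifs with h
  · simp
  · rw [← mul_sum]
    simp only [mul_assoc, ← mul_sum]
    ring

theorem opR_sub (V W : Fin N → Fin N → S) (d e : Fin N) :
    opR q x (fun c c' => V c c' - W c c') d e = opR q x V d e - opR q x W d e := by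
  unfold opR opT opD opC
  split_ifs with h
  · simp
  · simp only [sum_sub_distrib, sub_mul]
    ring

theorem opC_smul (k : S) (V : Fin N → Fin N → S) (d : Fin N) :
    opC (fun c c' => k * V c c') d = k * opC V d := by simp [opC, mul_sum]

theorem opC_sub (V W : Fin N → Fin N → S) (d : Fin N) :
    opC (fun c c' => V c c' - W c c') d = opC V d - opC W d := by simp [opC, sum_sub_distrib]

end naturality

/-- the geometric sum `1 + q + ⋯ + q ^ (m - 1)` -/
def qn {A : Type*} [CommRing A] (q : A) (m : ℕ) : A := ∑ i ∈ range m, q ^ i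

variable {N : ℕ} {A : Type*} [CommRing A]

@[simp] theorem qn_zero (q : A) : qn q 0 = 0 := by simp [qn]

theorem qn_succ (q : A) (m : ℕ) : qn q (m + 1) = qn q m + q ^ m := sum_range_succ _ _

theorem qn_add (q : A) (m k : ℕ) : qn q (m + k) = qn q m + q ^ m * qn q k := by
  rw [qn, sum_range_add, qn, qn, mul_sum]
  simp [pow_add]

theorem qn_mul (q : A) (m : ℕ) : (1 - q) * qn q m = 1 - q ^ m := by
  induction m with
  | zero => simp
  | succ m ih => rw [qn_succ, mul_add, ih]; ring

variable (q : A) (x : Fin N → A)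

/-- constants in the two-variable ring -/
noncomputable def KK : A →+* A[X][X] := (C : A[X] →+* A[X][X]).comp (C : A →+* A[X])

/-- coefficient of `z ^ i * w ^ j` -/
noncomputable def cc (p : A[X][X]) (i j : ℕ) : A := (p.coeff i).coeff j

/-- one-variable series of the one-pin states -/
noncomputable def bser (c : Fin N) : A[X] := Bp (C q) (fun i => C (x i)) X c

/-- one-variable series of the one-column two-pin states -/
noncomputable def pser (c d : Fin N) : A[X] := Pp (C q) (fun i => C (x i)) X c d

/-- one-variable series of elementary symmetric functions -/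
noncomputable def eser : A[X] := lp (fun i => C (x i)) univ X

/-- the one-pin basis -/
noncomputable def β (j : ℕ) (c : Fin N) : A := (bser q x c).coeff j

/-- the one-column two-pin states -/
noncomputable def π (j : ℕ) (c d : Fin N) : A := (pser q x c d).coeff j

/-- elementary symmetric function -/
noncomputable def ee (j : ℕ) : A := (eser x).coeff j

/-- substitute a value for the variable -/
noncomputable def at' (v : A[X][X]) : A[X] →+* A[X][X] := eval₂RingHom KK v

theorem Bp_at (v : A[X][X]) (c : Fin N) :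
    Bp (KK q) (fun i => KK (x i)) v c = at' v (bser q x c) := by
  rw [bser, map_Bp]; simp [at']

theorem Pp_at (v : A[X][X]) (c d : Fin N) :
    Pp (KK q) (fun i => KK (x i)) v c d = at' v (pser q x c d) := by
  rw [pser, map_Pp]; simp [at']

theorem lp_at (v : A[X][X]) :
    lp (fun i => KK (x i)) univ v = at' v (eser x) := by
  rw [eser, map_lp]; simp [at']

theorem at'_z (p : A[X]) : at' X p = p.map C := rfl

theorem at'_w (p : A[X]) : at' (C X) p = C p := by
  induction p using Polynomial.induction_on' with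
  | add a b ha hb => simp [ha, hb]
  | monomial n a => simp [at', KK, ← C_mul_X_pow_eq_monomial, map_mul, map_pow]

theorem at'_qw (p : A[X]) : at' (KK q * C X) p = C (p.comp (C q * X)) := by
  induction p using Polynomial.induction_on' with
  | add a b ha hb => simp [ha, hb]
  | monomial n a => simp [at', KK, ← C_mul_X_pow_eq_monomial, map_mul, map_pow]

theorem at'_qz (p : A[X]) : at' (KK q * X) p = (p.comp (C q * X)).map C := by
  induction p using Polynomial.induction_on' with
  | add a b ha hb => simp [ha, hb]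
  | monomial n a => simp [at', KK, ← C_mul_X_pow_eq_monomial, map_mul, map_pow]

theorem coeff_comp_qX (p : A[X]) (j : ℕ) : (p.comp (C q * X)).coeff j = q ^ j * p.coeff j := by
  induction p using Polynomial.induction_on' with
  | add a b ha hb => simp [ha, hb, mul_add]
  | monomial n a =>
    rw [monomial_comp, mul_pow, ← C_pow, ← mul_assoc, ← C_mul, coeff_C_mul_X_pow, coeff_monomial]
    split_ifs with h1 h2 h2
    · subst h1; ring
    · exact absurd h1.symm h2
    · exact absurd h2.symm h1
    · simp

@[simp] theorem cc_add (p r : A[X][X]) (i j : ℕ) : cc (p + r) i j = cc p i j + cc r i j := by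
  simp [cc]

@[simp] theorem cc_sub (p r : A[X][X]) (i j : ℕ) : cc (p - r) i j = cc p i j - cc r i j := by
  simp [cc]

@[simp] theorem cc_neg (p : A[X][X]) (i j : ℕ) : cc (-p) i j = -cc p i j := by simp [cc]

@[simp] theorem cc_zero (i j : ℕ) : cc (0 : A[X][X]) i j = 0 := by simp [cc]

@[simp] theorem cc_sum {ι : Type*} (s : Finset ι) (f : ι → A[X][X]) (i j : ℕ) :
    cc (∑ t ∈ s, f t) i j = ∑ t ∈ s, cc (f t) i j := by simp [cc]

@[simp] theorem cc_K (a : A) (p : A[X][X]) (i j : ℕ) : cc (KK a * p) i j = a * cc p i j := by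
  simp [cc, KK]

@[simp] theorem cc_z (p : A[X][X]) (i j : ℕ) : cc (X * p) (i + 1) j = cc p i j := by simp [cc]

@[simp] theorem cc_z0 (p : A[X][X]) (j : ℕ) : cc (X * p) 0 j = 0 := by simp [cc]

@[simp] theorem cc_w (p : A[X][X]) (i j : ℕ) : cc (C X * p) i (j + 1) = cc p i j := by simp [cc]

@[simp] theorem cc_w0 (p : A[X][X]) (i : ℕ) : cc (C X * p) i 0 = 0 := by simp [cc]

theorem cc_prod (p r : A[X]) (i j : ℕ) :
    cc (p.map C * C r) i j = p.coeff i * r.coeff j := by simp [cc]

theorem cc_prod' (p r : A[X]) (i j : ℕ) :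
    cc (C r * p.map C) i j = p.coeff i * r.coeff j := by
  rw [mul_comm]; exact cc_prod p r i j

/-- exchange of the two variables -/
noncomputable def sw : A[X][X] →+* A[X][X] := (Bivariate.swap (R := A)).toAlgHom.toRingHom

theorem sw_K (a : A) : sw (KK a) = KK a := Bivariate.swap_C_C a

theorem sw_z : sw (X : A[X][X]) = C X := Bivariate.swap_Y

theorem sw_w : sw (C X : A[X][X]) = X := Bivariate.swap_X

theorem cc_sw (p : A[X][X]) (i j : ℕ) : cc (sw p) i j = cc p j i := by
  induction p using Polynomial.induction_on' with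
  | add a b ha hb => simp [ha, hb]
  | monomial n a =>
    induction a using Polynomial.induction_on' with
    | add a b ha hb => simp [map_add, ha, hb]
    | monomial m r =>
      have : sw (monomial n (monomial m r)) = monomial m (monomial n r) :=
        Bivariate.swap_monomial_monomial n m r
      rw [this]
      simp only [cc, coeff_monomial]
      split_ifs <;> simp_all [coeff_monomial]

variable [IsDomain A]
set_option linter.unusedSectionVars false

theorem ee_zero : ee x 0 = 1 := by
  simp [ee, eser, lp, coeff_zero_prod]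

theorem Φ_dvd (c d : Fin N) :
    ∃ r : A[X][X], Fp (KK q) (fun i => KK (x i)) X (C X) c d = (X - C X) * r := by
  have h : IsRoot (Fp (KK q) (fun i => KK (x i)) X (C X) c d) X := by
    have := map_Fp (evalRingHom (X : A[X])) (KK q) (fun i => KK (x i)) X (C X) c d
    simp only [coe_evalRingHom, eval_X, eval_C] at this
    rw [IsRoot, this, Fp_eq]
  exact (dvd_iff_isRoot.mpr h)

/-- the two-parameter series -/
noncomputable def Φ (c d : Fin N) : A[X][X] := Classical.choose (Φ_dvd q x c d)

theorem Φ_spec (c d : Fin N) :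
    Fp (KK q) (fun i => KK (x i)) X (C X) c d = (X - C X) * Φ q x c d :=
  Classical.choose_spec (Φ_dvd q x c d)

theorem Ψ_dvd (hq : q ≠ 1) (c d : Fin N) :
    ∃ r : A[X][X], X * Φ q x c d
      - KK q * C X * (lp (fun i => KK (x i)) univ X * Pp (KK q) (fun i => KK (x i)) (C X) c d)
      = (X - KK q * C X) * r := by
  have hK : (KK q * C X : A[X][X]) = C (C q * X) := by simp [KK]
  have hev := congrArg (evalRingHom (C q * X : A[X])) (Φ_spec q x c d)
  rw [map_Fp] at hev
  simp only [coe_evalRingHom, eval_X, eval_C, map_mul, map_sub, KK, RingHom.coe_comp,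
    Function.comp_apply] at hev
  rw [Fp_diag] at hev
  have hne : (C q - 1) * X ≠ (0 : A[X]) := by
    apply mul_ne_zero ?_ X_ne_zero
    rw [sub_ne_zero, ← C_1]
    exact fun h => hq (C_injective h)
  have h2 : eval (C q * X) (Φ q x c d)
      = lp (fun i => C (x i)) univ (C q * X) * Pp (C q) (fun i => C (x i)) X c d := by
    apply mul_left_cancel₀ hne
    linear_combination -hev
  have h : IsRoot (X * Φ q x c d
      - KK q * C X * (lp (fun i => KK (x i)) univ X * Pp (KK q) (fun i => KK (x i)) (C X) c d))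
      (C q * X) := by
    have e1 := map_lp (evalRingHom (C q * X : A[X])) (fun i => KK (x i)) univ X
    have e2 := map_Pp (evalRingHom (C q * X : A[X])) (KK q) (fun i => KK (x i)) (C X) c d
    simp only [coe_evalRingHom, eval_X, eval_C, KK, RingHom.coe_comp, Function.comp_apply] at e1 e2
    simp only [IsRoot, eval_sub, eval_mul, eval_X, eval_C, KK, RingHom.coe_comp,
      Function.comp_apply, e1, e2, h2]
    ring
  rw [hK] at h ⊢
  exact dvd_iff_isRoot.mpr h

variable (hq : q ≠ 1)

/-- the series of the raw two-pin basis -/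
noncomputable def Ψ (c d : Fin N) : A[X][X] := Classical.choose (Ψ_dvd q x hq c d)

theorem Ψ_spec (c d : Fin N) :
    X * Φ q x c d
      - KK q * C X * (lp (fun i => KK (x i)) univ X * Pp (KK q) (fun i => KK (x i)) (C X) c d)
      = (X - KK q * C X) * Ψ q x hq c d :=
  Classical.choose_spec (Ψ_dvd q x hq c d)

theorem Δ_dvd (c : Fin N) :
    ∃ r : A[X][X], X * (lp (fun i => KK (x i)) univ (KK q * C X) * Bp (KK q) (fun i => KK (x i)) X c)
      - KK q * C X
        * (lp (fun i => KK (x i)) univ X * Bp (KK q) (fun i => KK (x i)) (KK q * C X) c)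
      = (X - KK q * C X) * r := by
  have hK : (KK q * C X : A[X][X]) = C (C q * X) := by simp [KK]
  rw [hK]
  apply dvd_iff_isRoot.mpr
  have e := fun v => map_lp (evalRingHom (C q * X : A[X])) (fun i => KK (x i)) univ v
  have e' := fun v => map_Bp (evalRingHom (C q * X : A[X])) (KK q) (fun i => KK (x i)) v c
  simp only [coe_evalRingHom, KK, RingHom.coe_comp, Function.comp_apply, eval_C] at e e'
  simp only [IsRoot, eval_sub, eval_mul, eval_X, eval_C, KK, RingHom.coe_comp,
    Function.comp_apply, e, e']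
  ring

/-- the antisymmetric kernel -/
noncomputable def Δs (c : Fin N) : A[X][X] := Classical.choose (Δ_dvd q x c)

theorem Δs_spec (c : Fin N) :
    X * (lp (fun i => KK (x i)) univ (KK q * C X) * Bp (KK q) (fun i => KK (x i)) X c)
      - KK q * C X
        * (lp (fun i => KK (x i)) univ X * Bp (KK q) (fun i => KK (x i)) (KK q * C X) c)
      = (X - KK q * C X) * Δs q x c :=
  Classical.choose_spec (Δ_dvd q x c)

/-- the raw two-pin basis -/
noncomputable def ψ (i j : ℕ) (c d : Fin N) : A := cc (Ψ q x hq c d) i j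

/-- coefficients of the antisymmetric kernel -/
noncomputable def Δc (i j : ℕ) (c : Fin N) : A := cc (Δs q x c) i j

theorem zsw_ne : (X : A[X][X]) - C X ≠ 0 := X_sub_C_ne_zero _

theorem zqw_ne : (X : A[X][X]) - KK q * C X ≠ 0 := by
  have hK : (KK q * C X : A[X][X]) = C (C q * X) := by simp [KK]
  rw [hK]; exact X_sub_C_ne_zero _

theorem master_R (d e : Fin N) :
    C X * ((X - C X) * opR (KK q) (fun i => KK (x i)) (Ψ q x hq) d e)
      = (C X - KK q * X) * sw (Ψ q x hq d e)
        + KK q * (X * (lp (fun i => KK (x i)) univ (C X)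
            * Pp (KK q) (fun i => KK (x i)) X d e))
        - KK (1 - q) * (C X * Ψ q x hq d e)
        - KK q * (C X * (lp (fun i => KK (x i)) univ X
            * Pp (KK q) (fun i => KK (x i)) (C X) d e)) := by
  set Q := KK q with hQ
  set Y : Fin N → A[X][X] := fun i => KK (x i) with hY
  have hF : X * ((X - C X) * opR Q Y (Φ q x) d e)
      = (X - Q * C X) * sw (Φ q x d e) + (Q - 1) * X * Φ q x d e
        - Q * (X - C X) * lp Y univ X * opD Q Y (Bp Q Y (C X)) d e := by
    have h := opR_Fp Q Y X (C X) d e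
    have hfun : Fp Q Y X (C X) = fun c c' => (X - C X) * Φ q x c c' := by
      funext c c'; exact Φ_spec q x c c'
    have hs : Fp Q Y (C X) X d e = (C X - X) * sw (Φ q x d e) := by
      have h2 := congrArg sw (Φ_spec q x d e)
      rw [map_Fp, map_mul, map_sub, sw_z, sw_w, sw_K] at h2
      simp only [sw_K] at h2
      exact h2
    rw [hs, hfun, opR_smul] at h
    apply mul_left_cancel₀ zsw_ne
    linear_combination h
  have hP := opR_Pp Q Y (C X) d e
  have hR : (X - Q * C X) * opR Q Y (Ψ q x hq) d e
      = X * opR Q Y (Φ q x) d e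
        - Q * C X * lp Y univ X * opR Q Y (Pp Q Y (C X)) d e := by
    rw [← opR_smul, ← opR_smul, ← opR_smul, ← opR_sub]
    congr 1
    funext c c'
    linear_combination -(Ψ_spec q x hq c c')
  have hS := congrArg sw (Ψ_spec q x hq d e)
  simp only [map_sub, map_mul, sw_z, sw_w, sw_K, map_lp, map_Pp] at hS
  have hΨ := Ψ_spec q x hq d e
  rw [← hQ, ← hY] at hS hΨ
  have h1 : (KK (1 - q) : A[X][X]) = 1 - Q := by rw [map_sub, map_one]
  rw [h1]
  apply mul_left_cancel₀ (zqw_ne q)
  rw [← hQ]
  linear_combination C X * (X - C X) * hR + C X * hF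
    - Q * lp Y univ X * C X * (X - C X) * hP + (X - Q * C X) * hS + (Q - 1) * C X * hΨ

theorem master_C (d : Fin N) :
    KK (1 - q) * ((X - C X) * opC (Ψ q x hq) d)
      = KK q * (lp (fun i => KK (x i)) univ X
          * Bp (KK q) (fun i => KK (x i)) (KK q * C X) d)
        - lp (fun i => KK (x i)) univ (KK q * X) * Bp (KK q) (fun i => KK (x i)) (C X) d
        + KK (1 - q) * Δs q x d := by
  set Q := KK q with hQ
  set Y : Fin N → A[X][X] := fun i => KK (x i) with hY
  have h := opC_Fp Q Y X (C X) d
  have hfun : Fp Q Y X (C X) = fun c c' => (X - C X) * Φ q x c c' := by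
    funext c c'; exact Φ_spec q x c c'
  rw [hfun, opC_smul] at h
  have hP := opC_Pp Q Y (C X) d
  have hR : (X - Q * C X) * opC (Ψ q x hq) d
      = X * opC (Φ q x) d - Q * C X * lp Y univ X * opC (Pp Q Y (C X)) d := by
    rw [← opC_smul, ← opC_smul, ← opC_smul, ← opC_sub]
    congr 1
    funext c c'
    linear_combination -(Ψ_spec q x hq c c')
  have hD := Δs_spec q x d
  rw [← hQ, ← hY] at hD
  have h1 : (KK (1 - q) : A[X][X]) = 1 - Q := by rw [map_sub, map_one]
  rw [h1]
  apply mul_left_cancel₀ (zqw_ne q)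
  rw [← hQ]
  linear_combination (1 - Q) * (X - C X) * hR + h - Q * lp Y univ X * (X - C X) * hP
    + (1 - Q) * hD

theorem cc_opD (V : Fin N → A[X][X]) (d e : Fin N) (i j : ℕ) :
    cc (opD (KK q) (fun t => KK (x t)) V d e) i j = opD q x (fun c => cc (V c) i j) d e := by
  unfold opD
  split_ifs
  · simp
  · rw [← map_qq, mul_assoc, ← map_mul, mul_comm, cc_K]; ring

theorem cc_opT (V : Fin N → Fin N → A[X][X]) (d e : Fin N) (i j : ℕ) :
    cc (opT (KK q) (fun t => KK (x t)) V d e) i j
      = opT q x (fun c c' => cc (V c c') i j) d e := by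
  unfold opT
  split_ifs
  · simp
  · rw [← map_qq, ← map_mul, cc_K, cc_sum]
    congr 1
    apply sum_congr rfl
    intro c _
    rw [← map_qq, mul_comm, cc_K]; ring

theorem cc_opC (V : Fin N → Fin N → A[X][X]) (d : Fin N) (i j : ℕ) :
    cc (opC V d) i j = opC (fun c c' => cc (V c c') i j) d := by simp [opC]

theorem cc_opR (V : Fin N → Fin N → A[X][X]) (d e : Fin N) (i j : ℕ) :
    cc (opR (KK q) (fun t => KK (x t)) V d e) i j
      = opR q x (fun c c' => cc (V c c') i j) d e := by
  unfold opR
  rw [cc_sub, cc_opT, cc_opD]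
  simp only [cc_opC]

/-- right-hand side of the recurrence for the commutator -/
noncomputable def rhsR (i j : ℕ) (d e : Fin N) : A :=
  ψ q x hq j (i + 1) d e - q * ψ q x hq (j + 1) i d e + q * (ee x (j + 1) * π q x i d e)
    - (1 - q) * ψ q x hq (i + 1) j d e - q * (ee x (i + 1) * π q x j d e)

theorem master_R_coeff (i j : ℕ) (d e : Fin N) :
    cc (C X * ((X - C X) * opR (KK q) (fun t => KK (x t)) (Ψ q x hq) d e)) (i + 1) (j + 1)
      = rhsR q x hq i j d e := by
  rw [master_R, lp_at x (C X), lp_at x X, Pp_at q x X, Pp_at q x (C X), at'_z, at'_z, at'_w,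
    at'_w]
  simp only [sub_mul, mul_assoc, cc_sub, cc_add, cc_K, cc_z, cc_w, cc_prod, cc_prod', cc_sw]
  simp only [rhsR, ψ, π, ee]
  ring

theorem R_base (i : ℕ) (d e : Fin N) :
    opR q x (ψ q x hq i 0) d e = rhsR q x hq i 0 d e := by
  rw [← master_R_coeff q x hq i 0 d e]
  simp only [sub_mul, cc_w, cc_sub, cc_z, cc_w0, sub_zero, cc_opR]
  rfl

theorem R_step (i j : ℕ) (d e : Fin N) :
    opR q x (ψ q x hq i (j + 1)) d e
      = opR q x (ψ q x hq (i + 1) j) d e + rhsR q x hq i (j + 1) d e := by
  rw [← master_R_coeff q x hq i (j + 1) d e]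
  simp only [sub_mul, cc_w, cc_sub, cc_z, cc_opR]
  show _ = _ + (opR q x (ψ q x hq i (j + 1)) d e - opR q x (ψ q x hq (i + 1) j) d e)
  ring

theorem Δ_coeff (i j : ℕ) (c : Fin N) :
    cc ((X - KK q * C X) * Δs q x c) (i + 1) j
      = q ^ j * (ee x j * β q x i c)
        - q * cc (C X * (lp (fun t => KK (x t)) univ X
            * Bp (KK q) (fun t => KK (x t)) (KK q * C X) c)) (i + 1) j := by
  rw [← Δs_spec, lp_at x (KK q * C X), Bp_at q x X, at'_qw, at'_z]
  simp only [mul_assoc, cc_sub, cc_K, cc_z, cc_prod', coeff_comp_qX, ee, β]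
  ring

theorem Δ_base (i : ℕ) (c : Fin N) : Δc q x i 0 c = β q x i c := by
  have h := Δ_coeff q x i 0 c
  simp only [sub_mul, mul_assoc, cc_sub, cc_K, cc_z, cc_w0, mul_zero, sub_zero, pow_zero,
    one_mul, ee_zero] at h
  exact h

theorem Δ_step (i j : ℕ) (c : Fin N) :
    Δc q x i (j + 1) c = q * Δc q x (i + 1) j c
      + q ^ (j + 1) * (ee x (j + 1) * β q x i c - ee x (i + 1) * β q x j c) := by
  have h := Δ_coeff q x i (j + 1) c
  rw [lp_at x X, Bp_at q x (KK q * C X), at'_qw, at'_z] at h
  simp only [sub_mul, mul_assoc, cc_sub, cc_K, cc_z, cc_w, cc_prod, coeff_comp_qX] at h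
  simp only [Δc, ee, β] at h ⊢
  linear_combination h

theorem master_C_coeff (i j : ℕ) (d : Fin N) :
    (1 - q) * cc ((X - C X) * opC (Ψ q x hq) d) i j
      = (1 - q) * ((qn q i - qn q (j + 1)) * (ee x i * β q x j d) + Δc q x i j d) := by
  have h := congrArg (fun p => cc p i j) (master_C q x hq d)
  simp only [lp_at x X, lp_at x (KK q * X), Bp_at q x (KK q * C X), Bp_at q x (C X), at'_qw,
    at'_qz, at'_z, at'_w, mul_assoc, cc_add, cc_sub, cc_K, cc_prod, coeff_comp_qX] at h
  simp only [Δc, ee, β] at h ⊢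
  linear_combination h - (eser x).coeff i * (bser q x d).coeff j * qn_mul q i
    + (eser x).coeff i * (bser q x d).coeff j * qn_mul q (j + 1)

theorem C_base (i : ℕ) (d : Fin N) :
    opC (ψ q x hq i 0) d
      = (qn q (i + 1) - 1) * (ee x (i + 1) * β q x 0 d) + Δc q x (i + 1) 0 d := by
  have h := mul_left_cancel₀ (sub_ne_zero.2 hq.symm) (master_C_coeff q x hq (i + 1) 0 d)
  simp only [sub_mul, cc_sub, cc_z, cc_w0, sub_zero, cc_opC] at h
  rw [← sub_mul] at h
  show opC (fun c c' => cc (Ψ q x hq c c') i 0) d = _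
  simpa [qn] using h

theorem C_step (i j : ℕ) (d : Fin N) :
    opC (ψ q x hq i (j + 1)) d = opC (ψ q x hq (i + 1) j) d
      + ((qn q (i + 1) - qn q (j + 2)) * (ee x (i + 1) * β q x (j + 1) d)
        + Δc q x (i + 1) (j + 1) d) := by
  have h := mul_left_cancel₀ (sub_ne_zero.2 hq.symm) (master_C_coeff q x hq (i + 1) (j + 1) d)
  simp only [sub_mul, cc_sub, cc_z, cc_w, cc_opC] at h
  show opC (fun c c' => cc (Ψ q x hq c c') i (j + 1)) d
    = opC (fun c c' => cc (Ψ q x hq c c') (i + 1) j) d + _
  linear_combination h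

theorem pser_R (d e : Fin N) :
    X * opR (C q) (fun i => C (x i)) (pser q x) d e
      = pser q x d e - opD (C q) (fun i => C (x i)) (bser q x) d e :=
  opR_Pp (C q) (fun i => C (x i)) X d e

theorem coeff_opD (V : Fin N → A[X]) (d e : Fin N) (n : ℕ) :
    (opD (C q) (fun i => C (x i)) V d e).coeff n = opD q x (fun c => (V c).coeff n) d e := by
  unfold opD
  split_ifs
  · simp
  · rw [← map_qq]; simp

theorem coeff_opR (V : Fin N → Fin N → A[X]) (d e : Fin N) (n : ℕ) :
    (opR (C q) (fun i => C (x i)) V d e).coeff n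
      = opR q x (fun c c' => (V c c').coeff n) d e := by
  unfold opR
  rw [coeff_sub, coeff_opD]
  congr 1
  · unfold opT
    split_ifs
    · simp
    · rw [← map_qq, ← map_mul, coeff_C_mul, finsetSum_coeff]
      congr 1
      apply sum_congr rfl
      intro c _
      rw [← map_qq, coeff_mul_C]
  · congr 1
    funext c
    simp [opC]

theorem R_π (j : ℕ) (d e : Fin N) :
    opR q x (π q x j) d e = π q x (j + 1) d e - opD q x (β q x (j + 1)) d e := by
  have h := congrArg (fun p => p.coeff (j + 1)) (pser_R q x d e)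
  simp only [coeff_X_mul, coeff_sub, coeff_opD, coeff_opR] at h
  exact h

theorem π_zero (d e : Fin N) : π q x 0 d e = opD q x (β q x 0) d e := by
  have h := congrArg (fun p => p.coeff 0) (pser_R q x d e)
  simp only [mul_coeff_zero, coeff_X_zero, zero_mul, coeff_sub, coeff_opD] at h
  exact (sub_eq_zero.1 h.symm)

include hq in
theorem C_π (j : ℕ) (d : Fin N) :
    opC (π q x j) d = qn q (j + 1) * β q x (j + 1) d := by
  apply mul_left_cancel₀ (sub_ne_zero.2 hq.symm)
  have h0 : Bp (C q) (fun i => C (x i)) (C q * X) d = (bser q x d).comp (C q * X) := by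
    rw [bser, ← coe_compRingHom_apply, map_Bp]; simp
  have h := congrArg (fun p => p.coeff (j + 1)) (opC_Pp (C q) (fun i => C (x i)) (X : A[X]) d)
  rw [h0, mul_assoc, coeff_X_mul, ← C_1, ← C_sub, coeff_C_mul, coeff_sub, coeff_comp_qX] at h
  have h1 : (opC (Pp (C q) (fun i => C (x i)) (X : A[X])) d).coeff j = opC (π q x j) d := by
    simp [opC, π, pser]
  rw [h1] at h
  simp only [β, bser] at h ⊢
  linear_combination h - (Bp (C q) (fun i => C (x i)) (X : A[X]) d).coeff (j + 1) * qn_mul q (j + 1)

theorem ψ_zero_right (i : ℕ) (c d : Fin N) :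
    ψ q x hq i 0 c d = opD q x (β q x i) c d := by
  let Z : A[X][X] →+* A[X] := mapRingHom (evalRingHom (0 : A))
  have hK : ∀ a, Z (KK a) = C a := by intro a; simp [Z, KK]
  have hz : Z X = X := by simp [Z]
  have hw : Z (C X) = 0 := by simp [Z]
  have h1 := congrArg Z (Φ_spec q x c d)
  rw [map_Fp, map_mul, map_sub, hz, hw, sub_zero] at h1
  simp only [hK] at h1
  rw [Fp_zero] at h1
  have h2 := congrArg Z (Ψ_spec q x hq c d)
  simp only [map_sub, map_mul, hz, hw, mul_zero, zero_mul, sub_zero] at h2
  have h3 : Z (Ψ q x hq c d) = opD (C q) (fun i => C (x i)) (bser q x) c d := by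
    apply mul_left_cancel₀ (X_ne_zero : (X : A[X]) ≠ 0)
    rw [← h2, ← h1]; rfl
  have h4 : ψ q x hq i 0 c d = (Z (Ψ q x hq c d)).coeff i := by
    simp [Z, ψ, cc, coeff_zero_eq_eval_zero]
  rw [h4, h3, coeff_opD]
  rfl

theorem ψ_zero_left (hq0 : q ≠ 0) (j : ℕ) (c d : Fin N) :
    ψ q x hq 0 j c d = π q x j c d := by
  have h := congrArg (fun p => cc p 0 (j + 1)) (Ψ_spec q x hq c d)
  simp only [lp_at x X, Pp_at q x (C X), at'_z, at'_w, sub_mul, mul_assoc, cc_sub, cc_K, cc_w,
    cc_z0, cc_prod] at h
  simp only [zero_sub, neg_inj] at h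
  have h2 := mul_left_cancel₀ hq0 h
  rw [show (eser x).coeff 0 = 1 from ee_zero x, one_mul] at h2
  exact h2.symm

end Vale.Agent.P066
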