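import Mathlib
import Vale.Agent.P066.Series

/-!
P066: closed forms of the two transfer operators on the window basis `V A B`.
-/

namespace Vale.Agent.P066

open Finset

variable {N : ℕ} {A : Type*} [CommRing A] [IsDomain A]
variable (q : A) (x : Fin N → A) (hq : q ≠ 1)

set_option linter.unusedSectionVars false

theorem qn_one : qn q 1 = 1 := by simp [qn]

theorem qn_succ' (m : ℕ) : qn q (m + 1) = 1 + q * qn q m := by
  rw [add_comm, qn_add, qn_one, pow_one]

theorem qn_sub {a b : ℕ} (h : a ≤ b) : qn q b = qn q a + q ^ a * qn q (b - a) := by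
  rw [← qn_add, Nat.add_sub_cancel' h]

/-- weight of a new vertex next to the pin -/
def wt (d e : Fin N) : A := if d = e then 0 else x e * qq q d e

theorem opD_eq (V : Fin N → A) (d e : Fin N) : opD q x V d e = wt q x d e * V d := by
  unfold opD wt; split_ifs <;> ring

theorem opR_add (V W : Fin N → Fin N → A) (d e : Fin N) :
    opR q x (fun c c' => V c c' + W c c') d e = opR q x V d e + opR q x W d e := by
  unfold opR opT opD opC
  split_ifs with h
  · simp
  · simp only [sum_add_distrib, add_mul]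
    ring

theorem opR_sum {ι : Type*} (s : Finset ι) (V : ι → Fin N → Fin N → A) (d e : Fin N) :
    opR q x (fun c c' => ∑ t ∈ s, V t c c') d e = ∑ t ∈ s, opR q x (V t) d e := by
  induction s using Finset.cons_induction with
  | empty =>
    simp only [sum_empty]
    simp [opR, opT, opD, opC]
  | cons a s ha ih => simp only [sum_cons]; rw [opR_add, ih]

theorem opC_add (V W : Fin N → Fin N → A) (d : Fin N) :
    opC (fun c c' => V c c' + W c c') d = opC V d + opC W d := by simp [opC, sum_add_distrib]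

theorem opC_sum {ι : Type*} (s : Finset ι) (V : ι → Fin N → Fin N → A) (d : Fin N) :
    opC (fun c c' => ∑ t ∈ s, V t c c') d = ∑ t ∈ s, opC (V t) d := by
  simp only [opC]; exact sum_comm

theorem π_zero' (d e : Fin N) : π q x 0 d e = wt q x d e * β q x 0 d := by
  rw [π_zero, opD_eq]

theorem ψ_zero_right' (i : ℕ) (d e : Fin N) :
    ψ q x hq i 0 d e = wt q x d e * β q x i d := by rw [ψ_zero_right, opD_eq]

theorem R_π' (j : ℕ) (d e : Fin N) :
    opR q x (π q x j) d e = π q x (j + 1) d e - wt q x d e * β q x (j + 1) d := by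
  rw [R_π, opD_eq]

/-- summand of `K` -/
noncomputable def tK (n m : ℕ) (c d : Fin N) : A :=
  ψ q x hq (n - m) m c d - ψ q x hq (m + 1) (n - (m + 1)) c d

/-- antisymmetrised raw basis vectors -/
noncomputable def K (a b : ℕ) (c d : Fin N) : A := ∑ m ∈ range a, tK q x hq (a + b) m c d

theorem tK_reflect (n m : ℕ) (h : m < n) (c d : Fin N) :
    tK q x hq n (n - 1 - m) c d = -tK q x hq n m c d := by
  simp only [tK]
  rw [show n - (n - 1 - m) = m + 1 by omega, show n - 1 - m = n - (m + 1) by omega,
    show n - (n - (m + 1) + 1) = m by omega, show n - (m + 1) + 1 = n - m by omega]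
  ring

theorem K_symm (a b : ℕ) (c d : Fin N) : K q x hq a b c d = K q x hq b a c d := by
  have h0 : ∑ m ∈ range (a + b), tK q x hq (a + b) m c d = 0 := by
    simp only [tK]
    rw [sum_sub_distrib, ← sum_range_reflect, sub_eq_zero]
    apply sum_congr rfl
    intro m hm
    have := mem_range.1 hm
    rw [show a + b - (a + b - 1 - m) = m + 1 by omega, show a + b - 1 - m = a + b - (m + 1) by omega]
  have h1 : ∑ m ∈ range b, tK q x hq (a + b) (a + m) c d = -K q x hq b a c d := by
    rw [K, ← sum_neg_distrib, ← sum_range_reflect]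
    apply sum_congr rfl
    intro m hm
    have := mem_range.1 hm
    rw [← tK_reflect q x hq (b + a) m (by omega), add_comm b a]
    congr 1
    omega
  rw [sum_range_add, h1] at h0
  show ∑ m ∈ range a, tK q x hq (a + b) m c d = _
  linear_combination h0

theorem K_shift (a b : ℕ) (c d : Fin N) :
    K q x hq (a + 1) b c d
      = K q x hq a (b + 1) c d + (ψ q x hq (b + 1) a c d - ψ q x hq (a + 1) b c d) := by
  rw [K, K, sum_range_succ, show a + (b + 1) = a + 1 + b by omega]
  congr 1
  rw [tK, show a + 1 + b - a = b + 1 by omega, show a + 1 + b - (a + 1) = b by omega]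

theorem K_zero (b : ℕ) (c d : Fin N) : K q x hq 0 b c d = 0 := by simp [K]

/-- prefix sums -/
noncomputable def Pf (n m : ℕ) (c d : Fin N) : A := ∑ p ∈ range m, ee x (n - p) * π q x p c d

theorem Pf_succ (n m : ℕ) (c d : Fin N) :
    Pf q x n (m + 1) c d = Pf q x n m c d + ee x (n - m) * π q x m c d := sum_range_succ _ _

theorem R_ψ (hq0 : q ≠ 0) (j : ℕ) : ∀ (i : ℕ) (d e : Fin N),
    opR q x (ψ q x hq i j) d e
      = π q x (i + j + 1) d e - (1 - q) * K q x hq (j + 1) i d e - ψ q x hq (j + 1) i d e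
        + q * (Pf q x (i + j + 1) (i + j + 1) d e - Pf q x (i + j + 1) i d e
          - Pf q x (i + j + 1) (j + 1) d e) := by
  induction j with
  | zero =>
    intro i d e
    rw [R_base, rhsR, ψ_zero_left q x hq hq0, K_shift, K_zero, Pf_succ, Pf_succ, add_zero,
      show i + 1 - i = 1 by omega, Nat.sub_zero]
    simp only [Pf, sum_range_zero, zero_add]
    ring
  | succ j ih =>
    intro i d e
    rw [R_step, ih, rhsR, K_shift q x hq (j + 1) i, show i + 1 + j + 1 = i + (j + 1) + 1 by omega,
      Pf_succ q x _ i, Pf_succ q x _ (j + 1), show i + (j + 1) + 1 - i = j + 1 + 1 by omega,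
      show i + (j + 1) + 1 - (j + 1) = i + 1 by omega]
    ring

theorem R_K (hq0 : q ≠ 0) (a : ℕ) : ∀ (b : ℕ) (d e : Fin N),
    opR q x (K q x hq a b) d e
      = K q x hq (a + 1) b d e + ψ q x hq (a + 1) b d e
        - wt q x d e * β q x (a + b + 1) d := by
  induction a with
  | zero =>
    intro b d e
    have hK : K q x hq 0 b = fun c c' => (0 : A) * (0 : A) := by
      funext c c'; rw [K_zero, mul_zero]
    rw [hK, opR_smul, zero_mul, K_shift, K_zero, zero_add, ψ_zero_right' q x hq (b + 1)]
    ring_nf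
  | succ a ih =>
    intro b d e
    have hK : K q x hq (a + 1) b
        = fun c c' => K q x hq a (b + 1) c c'
          + (ψ q x hq (b + 1) a c c' - ψ q x hq (a + 1) b c c') := by
      funext c c'; exact K_shift q x hq a b c c'
    rw [hK, opR_add, opR_sub, ih, R_ψ q x hq hq0, R_ψ q x hq hq0, K_shift q x hq (a + 1) b,
      K_symm q x hq (b + 1) (a + 1), show a + 1 + b + 1 = b + 1 + a + 1 by omega,
      show a + (b + 1) + 1 = b + 1 + a + 1 by omega]
    ring

/-- closed form of the antisymmetric kernel -/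
noncomputable def Y (n m : ℕ) (c : Fin N) : A :=
  ∑ k ∈ range (m + 1), ee x k * β q x (n - k) c - ∑ p ∈ range m, ee x (n - p) * β q x p c

theorem Y_succ (n m : ℕ) (c : Fin N) :
    Y q x n (m + 1) c = Y q x n m c + ee x (m + 1) * β q x (n - (m + 1)) c
      - ee x (n - m) * β q x m c := by
  simp only [Y, sum_range_succ _ (m + 1), sum_range_succ _ m]
  ring

theorem Δ_closed (j : ℕ) : ∀ (i : ℕ) (c : Fin N),
    Δc q x i j c = q ^ j * Y q x (i + j) (min i j) c := by
  induction j with
  | zero => intro i c; simp [Δ_base, Y, ee_zero]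
  | succ j ih =>
    intro i c
    rw [Δ_step, ih, show i + 1 + j = i + (j + 1) by omega]
    rcases lt_trichotomy i j with h | h | h
    · rw [min_eq_left (show i + 1 ≤ j by omega), min_eq_left (show i ≤ j + 1 by omega), Y_succ,
        show i + (j + 1) - (i + 1) = j by omega, show i + (j + 1) - i = j + 1 by omega]
      ring
    · subst h
      rw [min_eq_right (Nat.le_succ i), min_eq_left (Nat.le_succ i)]
      ring
    · rw [min_eq_right (show j ≤ i + 1 by omega), min_eq_right (show j + 1 ≤ i by omega), Y_succ,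
        show i + (j + 1) - (j + 1) = i by omega, show i + (j + 1) - j = i + 1 by omega]
      ring

/-- `e_k β_{n-k}` -/
noncomputable def eb (n k : ℕ) (c : Fin N) : A := ee x k * β q x (n - k) c

/-- `e_{n-p} β_p` -/
noncomputable def ef (n p : ℕ) (c : Fin N) : A := ee x (n - p) * β q x p c

/-- closed form of the drop of a raw basis vector -/
noncomputable def CF (i j M : ℕ) (c : Fin N) : A :=
  ∑ k ∈ range (M + 1), q ^ k * qn q (j + 1 - k) * eb q x (i + j + 1) k c
    + ∑ p ∈ range M, q ^ (j + 1) * qn q (i - p) * ef q x (i + j + 1) p c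

theorem C_ψ (j : ℕ) : ∀ (i : ℕ) (c : Fin N),
    opC (ψ q x hq i j) c = CF q x i j (min i (j + 1)) c := by
  induction j with
  | zero =>
    intro i c
    rw [C_base, Δ_closed]
    rcases Nat.eq_zero_or_pos i with rfl | hi
    · simp [CF, Y, eb, qn_one, ee_zero]
    · rw [min_eq_right (show 1 ≤ i from hi), qn_succ' q i]
      simp [CF, Y, eb, ef, qn_one, ee_zero, sum_range_succ]
      ring
  | succ j ih =>
    intro i c
    rw [C_step, ih, Δ_closed, show i + 1 + (j + 1) = i + (j + 1) + 1 by omega]
    unfold CF Y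
    rw [show i + 1 + j + 1 = i + (j + 1) + 1 by omega]
    have hY : ∀ k, ee x k * β q x (i + (j + 1) + 1 - k) c = eb q x (i + (j + 1) + 1) k c :=
      fun k => rfl
    have hY' : ∀ k, ee x (i + (j + 1) + 1 - k) * β q x k c = ef q x (i + (j + 1) + 1) k c :=
      fun k => rfl
    simp only [hY, hY', mul_sub, mul_sum]
    rcases le_or_gt i j with h | h
    · rw [min_eq_left (show i + 1 ≤ j + 1 by omega), min_eq_left (show i ≤ j + 1 + 1 by omega)]
      simp only [sum_range_succ _ (i + 1)]
      rw [sum_range_succ (fun p => q ^ (j + 1) * qn q (i + 1 - p) * _) i]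
      have h1 : ee x (i + 1) * β q x (j + 1) c = eb q x (i + (j + 1) + 1) (i + 1) c := by
        unfold eb; congr 2; omega
      rw [h1]
      have k1 : ∑ k ∈ range (i + 1), q ^ k * qn q (j + 1 + 1 - k) * eb q x (i + (j + 1) + 1) k c
          = ∑ k ∈ range (i + 1), q ^ k * qn q (j + 1 - k) * eb q x (i + (j + 1) + 1) k c
            + ∑ k ∈ range (i + 1), q ^ (j + 1) * eb q x (i + (j + 1) + 1) k c := by
        rw [← sum_add_distrib]
        apply sum_congr rfl
        intro k hk
        have := mem_range.1 hk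
        rw [show j + 1 + 1 - k = (j + 1 - k) + 1 by omega, qn_succ, mul_add, ← pow_add,
          show k + (j + 1 - k) = j + 1 by omega]
        ring
      have p1 : ∑ p ∈ range i, q ^ (j + 1 + 1) * qn q (i - p) * ef q x (i + (j + 1) + 1) p c
          = ∑ p ∈ range i, q ^ (j + 1) * qn q (i + 1 - p) * ef q x (i + (j + 1) + 1) p c
            - ∑ p ∈ range i, q ^ (j + 1) * ef q x (i + (j + 1) + 1) p c := by
        rw [← sum_sub_distrib]
        apply sum_congr rfl
        intro p hp
        have := mem_range.1 hp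
        rw [show i + 1 - p = (i - p) + 1 by omega, qn_succ']
        ring
      rw [k1, p1, show j + 1 - (i + 1) = j - i by omega, show i + 1 - i = 1 by omega, qn_one]
      simp only [sum_range_succ _ i]
      have hI := qn_add q (i + 1) (j - i + 1)
      rw [show i + 1 + (j - i + 1) = j + 2 by omega, qn_succ q (j - i), mul_add, ← pow_add,
        show i + 1 + (j - i) = j + 1 by omega] at hI
      linear_combination (-1 : A) * eb q x (i + (j + 1) + 1) (i + 1) c * hI
    · rw [min_eq_right (show j + 1 ≤ i + 1 by omega)]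
      have hM : ∀ M, (M = j + 1 ∧ i = j + 1) ∨ M = j + 2 →
          ∑ k ∈ range (M + 1), q ^ k * qn q (j + 1 + 1 - k) * eb q x (i + (j + 1) + 1) k c
            + ∑ p ∈ range M, q ^ (j + 1 + 1) * qn q (i - p) * ef q x (i + (j + 1) + 1) p c
          = ∑ k ∈ range (j + 2), q ^ k * qn q (j + 2 - k) * eb q x (i + (j + 1) + 1) k c
            + ∑ p ∈ range (j + 2), q ^ (j + 2) * qn q (i - p) * ef q x (i + (j + 1) + 1) p c := by
        rintro M (⟨rfl, rfl⟩ | rfl)
        · simp [sum_range_succ _ (j + 1)]
        · simp [sum_range_succ _ (j + 2)]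
      rw [hM _ (by omega)]
      simp only [sum_range_succ _ (j + 1)]
      have h1 : ee x (i + 1) * β q x (j + 1) c = ef q x (i + (j + 1) + 1) (j + 1) c := by
        unfold ef; congr 2; omega
      rw [h1]
      have k1 : ∑ k ∈ range (j + 1), q ^ k * qn q (j + 2 - k) * eb q x (i + (j + 1) + 1) k c
          = ∑ k ∈ range (j + 1), q ^ k * qn q (j + 1 - k) * eb q x (i + (j + 1) + 1) k c
            + ∑ k ∈ range (j + 1), q ^ (j + 1) * eb q x (i + (j + 1) + 1) k c := by
        rw [← sum_add_distrib]
        apply sum_congr rfl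
        intro k hk
        have := mem_range.1 hk
        rw [show j + 2 - k = (j + 1 - k) + 1 by omega, qn_succ, mul_add, ← pow_add,
          show k + (j + 1 - k) = j + 1 by omega]
        ring
      have p1 : ∑ p ∈ range (j + 1), q ^ (j + 2) * qn q (i - p) * ef q x (i + (j + 1) + 1) p c
          = ∑ p ∈ range (j + 1), q ^ (j + 1) * qn q (i + 1 - p) * ef q x (i + (j + 1) + 1) p c
            - ∑ p ∈ range (j + 1), q ^ (j + 1) * ef q x (i + (j + 1) + 1) p c := by
        rw [← sum_sub_distrib]
        apply sum_congr rfl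
        intro p hp
        have := mem_range.1 hp
        rw [show i + 1 - p = (i - p) + 1 by omega, qn_succ']
        ring
      rw [k1, p1, show j + 2 - (j + 1) = 1 by omega, qn_one, Nat.sub_self, qn_zero]
      have hI := qn_add q (j + 2) (i - (j + 1))
      rw [show j + 2 + (i - (j + 1)) = i + 1 by omega] at hI
      linear_combination ef q x (i + (j + 1) + 1) (j + 1) c * hI

theorem C_π_zero_fun (b : ℕ) (c : Fin N) : opC (K q x hq 0 b) c = 0 := by
  have hK : K q x hq 0 b = fun _ _ => (0 : A) := by funext c c'; exact K_zero q x hq b c c'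
  rw [hK]; simp [opC]

theorem C_K (a : ℕ) : ∀ (b : ℕ) (c : Fin N), a ≤ b →
    opC (K q x hq a b) c
      = qn q (a + b + 1) * β q x (a + b + 1) c
        - ∑ k ∈ range (a + 1),
            q ^ k * qn q (a + 1 - k) * qn q (b + 1 - k) * eb q x (a + b + 1) k c
        + ∑ p ∈ range a, q ^ (p + 1) * qn q (a - p) * qn q (b - p) * ef q x (a + b + 1) p c := by
  induction a with
  | zero =>
    intro b c _
    rw [C_π_zero_fun]
    simp [eb, ee_zero, qn_one]
  | succ a ih =>
    intro b c hab
    have hK : K q x hq (a + 1) b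
        = fun c c' => K q x hq a (b + 1) c c'
          + (ψ q x hq (b + 1) a c c' - ψ q x hq (a + 1) b c c') := by
      funext c c'; exact K_shift q x hq a b c c'
    rw [hK, opC_add, opC_sub, ih (b + 1) c (by omega), C_ψ, C_ψ,
      min_eq_right (show a + 1 ≤ b + 1 by omega), min_eq_left (show a + 1 ≤ b + 1 by omega)]
    unfold CF
    rw [show b + 1 + a + 1 = a + 1 + b + 1 by omega, show a + (b + 1) + 1 = a + 1 + b + 1 by omega]
    have k1 : ∑ k ∈ range (a + 1 + 1),
          q ^ k * qn q (a + 1 + 1 - k) * qn q (b + 1 - k) * eb q x (a + 1 + b + 1) k c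
        = ∑ k ∈ range (a + 1),
            q ^ k * qn q (a + 1 - k) * qn q (b + 1 + 1 - k) * eb q x (a + 1 + b + 1) k c
          - ∑ k ∈ range (a + 1 + 1), q ^ k * qn q (a + 1 - k) * eb q x (a + 1 + b + 1) k c
          + ∑ k ∈ range (a + 1 + 1), q ^ k * qn q (b + 1 - k) * eb q x (a + 1 + b + 1) k c := by
      have e0 : ∑ k ∈ range (a + 1),
            q ^ k * qn q (a + 1 - k) * qn q (b + 1 + 1 - k) * eb q x (a + 1 + b + 1) k c
          = ∑ k ∈ range (a + 1 + 1),
            q ^ k * qn q (a + 1 - k) * qn q (b + 1 + 1 - k) * eb q x (a + 1 + b + 1) k c := by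
        simp [sum_range_succ _ (a + 1)]
      rw [e0, ← sum_sub_distrib, ← sum_add_distrib]
      apply sum_congr rfl
      intro k hk
      have := mem_range.1 hk
      rw [show a + 1 + 1 - k = (a + 1 - k) + 1 by omega,
        show b + 1 + 1 - k = (b + 1 - k) + 1 by omega, qn_succ' q (a + 1 - k),
        qn_succ' q (b + 1 - k)]
      ring
    have p1 : ∑ p ∈ range (a + 1),
          q ^ (p + 1) * qn q (a + 1 - p) * qn q (b - p) * ef q x (a + 1 + b + 1) p c
        = ∑ p ∈ range a,
            q ^ (p + 1) * qn q (a - p) * qn q (b + 1 - p) * ef q x (a + 1 + b + 1) p c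
          + ∑ p ∈ range (a + 1), q ^ (a + 1) * qn q (b + 1 - p) * ef q x (a + 1 + b + 1) p c
          - ∑ p ∈ range (a + 1), q ^ (b + 1) * qn q (a + 1 - p) * ef q x (a + 1 + b + 1) p c := by
      have e0 : ∑ p ∈ range a,
            q ^ (p + 1) * qn q (a - p) * qn q (b + 1 - p) * ef q x (a + 1 + b + 1) p c
          = ∑ p ∈ range (a + 1),
            q ^ (p + 1) * qn q (a - p) * qn q (b + 1 - p) * ef q x (a + 1 + b + 1) p c := by
        simp [sum_range_succ _ a]
      rw [e0, ← sum_add_distrib, ← sum_sub_distrib]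
      apply sum_congr rfl
      intro p hp
      have := mem_range.1 hp
      rw [show a + 1 - p = (a - p) + 1 by omega, show b + 1 - p = (b - p) + 1 by omega,
        qn_succ q (a - p), qn_succ q (b - p),
        show q ^ (a + 1) = q ^ (p + 1) * q ^ (a - p) by rw [← pow_add]; congr 1; omega,
        show q ^ (b + 1) = q ^ (p + 1) * q ^ (b - p) by rw [← pow_add]; congr 1; omega]
      ring
    rw [k1, p1]
    ring

/-- the correction term of the window basis -/
noncomputable def Γ (m ε n : ℕ) (c d : Fin N) : A :=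
  qn q m * π q x n c d
    + ∑ j ∈ range m, q ^ (j + 1) * qn q (m - j) * ee x (j + 1) * π q x (n - (j + 1)) c d
    + ∑ p ∈ range (m - ε), q ^ (m + 1) * qn q (m - ε - p) * ee x (n - p) * π q x p c d

/-- the window basis -/
noncomputable def V (a b : ℕ) (c d : Fin N) : A :=
  if a = 0 then π q x b c d
  else if a ≤ b then q ^ a * K q x hq a b c d + Γ q x a 1 (a + b) c d
  else q ^ b * (K q x hq b a c d + ψ q x hq a b c d) + Γ q x b 0 (a + b) c d

/-- first positive part -/
noncomputable def U (m n : ℕ) (c : Fin N) : A :=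
  ∑ k ∈ range (m + 1), q ^ k * qn q (m + 1 - k) * eb q x (n + 1) k c

/-- second positive part -/
noncomputable def L (k n : ℕ) (c : Fin N) : A :=
  ∑ p ∈ range k, qn q (k - p) * ef q x (n + 1) p c

theorem V_right_zero (a : ℕ) (d e : Fin N) :
    V q x hq a 0 d e = wt q x d e * β q x a d := by
  rcases Nat.eq_zero_or_pos a with rfl | ha
  · simp [V, π_zero']
  · rw [V, if_neg (by omega), if_neg (by omega), K_zero, zero_add, pow_zero, one_mul,
      ψ_zero_right']
    simp [Γ]

include hq in
theorem C_Γ (m ε n : ℕ) (hm : m ≤ n) (hε : ε ≤ 1) (c : Fin N) :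
    opC (Γ q x m ε n) c
      = qn q m * (qn q (n + 1) * β q x (n + 1) c)
        + ∑ k ∈ range m,
            q ^ (k + 1) * qn q (m - k) * qn q (n - k) * eb q x (n + 1) (k + 1) c
        + ∑ p ∈ range (m - ε + 1), q ^ (m + 1) * qn q (m - ε + 1 - p) * qn q p
            * ef q x (n + 1) p c := by
  unfold Γ
  rw [opC_add, opC_add, opC_sum, opC_sum, sum_range_succ' _ (m - ε)]
  simp only [qn_zero, mul_zero, zero_mul, add_zero, opC_smul, C_π q x hq]
  congr 1
  · congr 1
    apply sum_congr rfl
    intro k hk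
    have := mem_range.1 hk
    rw [show n - (k + 1) + 1 = n - k by omega, eb, show n + 1 - (k + 1) = n - k by omega]
    ring
  · apply sum_congr rfl
    intro p hp
    rw [ef, show m - ε + 1 - (p + 1) = m - ε - p by omega, show n + 1 - (p + 1) = n - p by omega]
    ring

theorem C_V_zero (b : ℕ) (c : Fin N) :
    opC (V q x hq 0 b) c = qn q (b + 1) * β q x (b + 1) c := by
  have : V q x hq 0 b = π q x b := by funext c c'; simp [V]
  rw [this, C_π q x hq]

theorem C_V_le {a b : ℕ} (ha : 1 ≤ a) (hab : a ≤ b) (c : Fin N) :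
    opC (V q x hq a b) c
      = qn q a * U q x a (a + b) c + q ^ (a + 1) * qn q b * L q x a (a + b) c := by
  have hV : V q x hq a b = fun c c' => q ^ a * K q x hq a b c c' + Γ q x a 1 (a + b) c c' := by
    funext c c'; rw [V, if_neg (by omega), if_pos hab]
  rw [hV, opC_add, opC_smul, C_K q x hq a b c hab, C_Γ q x hq a 1 (a + b) (by omega) le_rfl,
    show a - 1 + 1 = a by omega]
  unfold U L
  rw [sum_range_succ' _ a, sum_range_succ' _ a]
  simp only [eb, ee_zero, Nat.sub_zero, pow_zero, one_mul, mul_add, mul_sub, mul_sum]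
  have k1 : ∑ k ∈ range a, q ^ a * (q ^ (k + 1) * qn q (a + 1 - (k + 1)) * qn q (b + 1 - (k + 1))
        * (ee x (k + 1) * β q x (a + b + 1 - (k + 1)) c))
      + ∑ k ∈ range a, qn q a * (q ^ (k + 1) * qn q (a + 1 - (k + 1))
        * (ee x (k + 1) * β q x (a + b + 1 - (k + 1)) c))
      = ∑ k ∈ range a, q ^ (k + 1) * qn q (a - k) * qn q (a + b - k)
        * (ee x (k + 1) * β q x (a + b + 1 - (k + 1)) c) := by
    rw [← sum_add_distrib]
    apply sum_congr rfl
    intro k hk
    have := mem_range.1 hk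
    rw [show a + 1 - (k + 1) = a - k by omega, show b + 1 - (k + 1) = b - k by omega,
      show a + b - k = a + (b - k) by omega, qn_add]
    ring
  have p1 : ∑ p ∈ range a, q ^ (a + 1) * qn q b * (qn q (a - p) * ef q x (a + b + 1) p c)
      = ∑ p ∈ range a,
          q ^ a * (q ^ (p + 1) * qn q (a - p) * qn q (b - p) * ef q x (a + b + 1) p c)
        + ∑ p ∈ range a, q ^ (a + 1) * qn q (a - p) * qn q p * ef q x (a + b + 1) p c := by
    rw [← sum_add_distrib]
    apply sum_congr rfl
    intro p hp
    have := mem_range.1 hp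
    rw [qn_sub q (show p ≤ b by omega)]
    ring
  rw [p1, ← k1, show a + b + 1 = a + (b + 1) by omega, qn_add, qn_succ q a]
  ring

theorem C_V_gt {a b : ℕ} (hab : b < a) (c : Fin N) :
    opC (V q x hq a b) c
      = qn q (b + 1) * U q x b (a + b) c
        + q ^ (b + 1) * qn q a * L q x (b + 1) (a + b) c := by
  have hV : V q x hq a b = fun c c' =>
      q ^ b * (K q x hq b a c c' + ψ q x hq a b c c') + Γ q x b 0 (a + b) c c' := by
    funext c c'; rw [V, if_neg (by omega), if_neg (by omega)]
  rw [hV, opC_add, opC_smul, opC_add, C_K q x hq b a c hab.le, C_ψ,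
    min_eq_right (show b + 1 ≤ a by omega), C_Γ q x hq b 0 (a + b) (by omega) (by omega),
    Nat.sub_zero]
  unfold U L CF
  rw [show b + a + 1 = a + b + 1 by omega, sum_range_succ _ (b + 1), Nat.sub_self, qn_zero,
    sum_range_succ' _ b, sum_range_succ' _ b]
  simp only [eb, ee_zero, Nat.sub_zero, pow_zero, one_mul, mul_add, mul_sub, mul_sum, mul_zero, zero_mul,
    add_zero]
  have k1 : ∑ k ∈ range b, qn q (b + 1) * (q ^ (k + 1) * qn q (b + 1 - (k + 1))
        * (ee x (k + 1) * β q x (a + b + 1 - (k + 1)) c))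
      + ∑ k ∈ range b, q ^ b * (q ^ (k + 1) * qn q (b + 1 - (k + 1)) * qn q (a + 1 - (k + 1))
        * (ee x (k + 1) * β q x (a + b + 1 - (k + 1)) c))
      = ∑ k ∈ range b, q ^ (k + 1) * qn q (b - k) * qn q (a + b - k)
        * (ee x (k + 1) * β q x (a + b + 1 - (k + 1)) c)
      + ∑ k ∈ range b, q ^ b * (q ^ (k + 1) * qn q (b + 1 - (k + 1))
        * (ee x (k + 1) * β q x (a + b + 1 - (k + 1)) c)) := by
    rw [← sum_add_distrib, ← sum_add_distrib]
    apply sum_congr rfl
    intro k hk
    have := mem_range.1 hk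
    rw [show b + 1 - (k + 1) = b - k by omega, show a + 1 - (k + 1) = a - k by omega,
      show a + b - k = b + (a - k) by omega, qn_add q b (a - k), qn_succ q b]
    ring
  have p1 : ∑ p ∈ range (b + 1),
        q ^ (b + 1) * qn q a * (qn q (b + 1 - p) * ef q x (a + b + 1) p c)
      = ∑ p ∈ range b,
          q ^ b * (q ^ (p + 1) * qn q (b - p) * qn q (a - p) * ef q x (a + b + 1) p c)
        + ∑ p ∈ range (b + 1),
          q ^ b * (q ^ (b + 1) * qn q (a - p) * ef q x (a + b + 1) p c)
        + ∑ p ∈ range (b + 1),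
          q ^ (b + 1) * qn q (b + 1 - p) * qn q p * ef q x (a + b + 1) p c := by
    have e0 : ∑ p ∈ range b,
          q ^ b * (q ^ (p + 1) * qn q (b - p) * qn q (a - p) * ef q x (a + b + 1) p c)
        = ∑ p ∈ range (b + 1),
          q ^ b * (q ^ (p + 1) * qn q (b - p) * qn q (a - p) * ef q x (a + b + 1) p c) := by
      simp [sum_range_succ _ b]
    rw [e0, ← sum_add_distrib, ← sum_add_distrib]
    apply sum_congr rfl
    intro p hp
    have := mem_range.1 hp
    rw [qn_sub q (show p ≤ a by omega), show b + 1 - p = (b - p) + 1 by omega, qn_succ,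
      show q ^ (b + 1) = q ^ (p + 1) * q ^ (b - p) by rw [← pow_add]; congr 1; omega]
    have hb : q ^ b = q ^ p * q ^ (b - p) := by rw [← pow_add]; congr 1; omega
    rw [hb]
    ring
  have hn : qn q (a + b + 1) = qn q b + q ^ b * qn q (a + 1) := by
    rw [← qn_add]; congr 1; omega
  rw [hn, qn_succ q b]
  rw [qn_succ q b] at k1
  linear_combination -k1 - p1

theorem R_Γ (m ε n : ℕ) (hm : m ≤ n) (hε : ε ≤ 1) (d e : Fin N) :
    opR q x (Γ q x m ε n) d e
      = qn q m * (π q x (n + 1) d e - wt q x d e * β q x (n + 1) d)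
        + ∑ k ∈ range m, q ^ (k + 1) * qn q (m - k) * ee x (k + 1)
            * (π q x (n - k) d e - wt q x d e * β q x (n - k) d)
        + ∑ p ∈ range (m - ε + 1), q ^ (m + 1) * qn q (m - ε + 1 - p) * ee x (n + 1 - p)
            * (π q x p d e - wt q x d e * β q x p d) := by
  unfold Γ
  rw [opR_add, opR_add, opR_sum, opR_sum, sum_range_succ' _ (m - ε)]
  simp only [π_zero', sub_self, mul_zero, add_zero, opR_smul, R_π']
  congr 1
  · congr 1
    apply sum_congr rfl
    intro k hk
    have := mem_range.1 hk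
    rw [show n - (k + 1) + 1 = n - k by omega]
  · apply sum_congr rfl
    intro p hp
    rw [show m - ε + 1 - (p + 1) = m - ε - p by omega, show n + 1 - (p + 1) = n - p by omega]

theorem R_V_le (hq0 : q ≠ 0) {a b : ℕ} (ha : 1 ≤ a) (hab : a ≤ b) (d e : Fin N) :
    opR q x (V q x hq a b) d e
      = V q x hq (b + 1) a d e
        - wt q x d e * (U q x a (a + b) d + q ^ (a + 1) * L q x a (a + b) d) := by
  have hV : V q x hq a b = fun c c' => q ^ a * K q x hq a b c c' + Γ q x a 1 (a + b) c c' := by
    funext c c'; rw [V, if_neg (by omega), if_pos hab]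
  rw [hV, opR_add, opR_smul, R_K q x hq hq0, R_Γ q x a 1 (a + b) (by omega) le_rfl, K_shift,
    V, if_neg (by omega), if_neg (by omega), show b + 1 + a = a + b + 1 by omega,
    show a - 1 + 1 = a by omega]
  unfold U L Γ eb ef
  rw [sum_range_succ' _ a, Nat.sub_zero]
  simp only [ee_zero, Nat.sub_zero, pow_zero, one_mul, mul_add, mul_sum, mul_sub,
    sum_sub_distrib]
  rw [qn_succ q a]
  have h1 : ∀ k ∈ range a, q ^ (k + 1) * qn q (a - k) * ee x (k + 1)
        * (wt q x d e * β q x (a + b - k) d)
      = wt q x d e * (q ^ (k + 1) * qn q (a + 1 - (k + 1))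
        * (ee x (k + 1) * β q x (a + b + 1 - (k + 1)) d)) := by
    intro k hk
    rw [show a + 1 - (k + 1) = a - k by omega, show a + b + 1 - (k + 1) = a + b - k by omega]
    ring
  have h2 : ∀ k ∈ range a, q ^ (k + 1) * qn q (a - k) * ee x (k + 1) * π q x (a + b - k) d e
      = q ^ (k + 1) * qn q (a - k) * ee x (k + 1) * π q x (a + b + 1 - (k + 1)) d e := by
    intro k hk
    rw [show a + b + 1 - (k + 1) = a + b - k by omega]
  rw [sum_congr rfl h1, sum_congr rfl h2]
  simp only [mul_assoc, mul_left_comm (wt q x d e)]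
  ring

theorem Pf_tail (a b : ℕ) (d e : Fin N) :
    Pf q x (a + b + 1) (a + b + 1) d e = Pf q x (a + b + 1) a d e
      + ∑ k ∈ range (b + 1), ee x (k + 1) * π q x (a + b - k) d e := by
  unfold Pf
  rw [show range (a + b + 1) = range (a + (b + 1)) by rw [add_assoc], sum_range_add]
  congr 1
  rw [← sum_range_reflect]
  apply sum_congr rfl
  intro k hk
  have := mem_range.1 hk
  rw [show a + b + 1 - (a + (b + 1 - 1 - k)) = k + 1 by omega,
    show a + (b + 1 - 1 - k) = a + b - k by omega]

theorem R_V_gt (hq0 : q ≠ 0) {a b : ℕ} (hab : b < a) (d e : Fin N) :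
    opR q x (V q x hq a b) d e
      = V q x hq (b + 1) a d e
        - wt q x d e * (U q x b (a + b) d + q ^ (b + 1) * L q x (b + 1) (a + b) d) := by
  have hV : V q x hq a b = fun c c' =>
      q ^ b * (K q x hq b a c c' + ψ q x hq a b c c') + Γ q x b 0 (a + b) c c' := by
    funext c c'; rw [V, if_neg (by omega), if_neg (by omega)]
  rw [hV, opR_add, opR_smul, opR_add, R_K q x hq hq0, R_ψ q x hq hq0, Pf_tail,
    R_Γ q x b 0 (a + b) (by omega) (by omega),
    V, if_neg (by omega), if_pos (by omega), show b + 1 + a = a + b + 1 by omega,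
    show b + a + 1 = a + b + 1 by omega, Nat.sub_zero]
  unfold U L Γ eb ef Pf
  rw [sum_range_succ' (fun k => q ^ k * qn q (b + 1 - k) * (ee x k * β q x (a + b + 1 - k) d)) b,
    Nat.add_sub_cancel]
  simp only [ee_zero, Nat.sub_zero, pow_zero, one_mul]
  have h1 : ∑ k ∈ range b, q ^ (k + 1) * qn q (b - k) * ee x (k + 1)
        * (π q x (a + b - k) d e - wt q x d e * β q x (a + b - k) d)
      = ∑ k ∈ range (b + 1), q ^ (k + 1) * qn q (b + 1 - k) * ee x (k + 1)
          * π q x (a + b + 1 - (k + 1)) d e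
        - q ^ (b + 1) * ∑ k ∈ range (b + 1), ee x (k + 1) * π q x (a + b - k) d e
        - wt q x d e * ∑ k ∈ range b, q ^ (k + 1) * qn q (b + 1 - (k + 1))
          * (ee x (k + 1) * β q x (a + b + 1 - (k + 1)) d) := by
    rw [sum_range_succ _ b, sum_range_succ _ b, show b + 1 - b = 1 by omega, qn_one,
      show a + b + 1 - (b + 1) = a + b - b by omega, mul_sum, mul_add, mul_sum]
    have : ∀ k ∈ range b, q ^ (k + 1) * qn q (b - k) * ee x (k + 1)
        * (π q x (a + b - k) d e - wt q x d e * β q x (a + b - k) d)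
      = q ^ (k + 1) * qn q (b + 1 - k) * ee x (k + 1) * π q x (a + b + 1 - (k + 1)) d e
        - q ^ (b + 1) * (ee x (k + 1) * π q x (a + b - k) d e)
        - wt q x d e * (q ^ (k + 1) * qn q (b + 1 - (k + 1))
          * (ee x (k + 1) * β q x (a + b + 1 - (k + 1)) d)) := by
      intro k hk
      have := mem_range.1 hk
      rw [show b + 1 - (k + 1) = b - k by omega, show a + b + 1 - (k + 1) = a + b - k by omega,
        show b + 1 - k = (b - k) + 1 by omega, qn_succ,
        show q ^ (b + 1) = q ^ (k + 1) * q ^ (b - k) by rw [← pow_add]; congr 1; omega]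
      ring
    rw [sum_congr rfl this, sum_sub_distrib, sum_sub_distrib]
    ring
  have h2 : ∑ p ∈ range (b + 1), q ^ (b + 1) * qn q (b + 1 - p) * ee x (a + b + 1 - p)
        * (π q x p d e - wt q x d e * β q x p d)
      = ∑ p ∈ range b, q ^ (b + 1 + 1) * qn q (b - p) * ee x (a + b + 1 - p) * π q x p d e
        + q ^ (b + 1) * ∑ p ∈ range (b + 1), ee x (a + b + 1 - p) * π q x p d e
        - wt q x d e * (q ^ (b + 1) * ∑ p ∈ range (b + 1),
            qn q (b + 1 - p) * (ee x (a + b + 1 - p) * β q x p d)) := by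
    have e0 : ∑ p ∈ range b, q ^ (b + 1 + 1) * qn q (b - p) * ee x (a + b + 1 - p) * π q x p d e
        = ∑ p ∈ range (b + 1),
          q ^ (b + 1 + 1) * qn q (b - p) * ee x (a + b + 1 - p) * π q x p d e := by
      simp [sum_range_succ _ b]
    rw [e0, mul_sum, mul_sum, mul_sum, ← sum_add_distrib, ← sum_sub_distrib]
    apply sum_congr rfl
    intro p hp
    have := mem_range.1 hp
    rw [show b + 1 - p = (b - p) + 1 by omega, qn_succ']
    ring
  rw [h1, h2, qn_succ q b]
  ring

theorem qn_pred {a : ℕ} (h : 1 ≤ a) : qn q a - 1 = q * qn q (a - 1) := by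
  obtain ⟨b, rfl⟩ := Nat.exists_eq_add_of_le h
  rw [add_comm 1 b, qn_succ', Nat.add_sub_cancel]
  ring

theorem opT_eq (W : Fin N → Fin N → A) (d e : Fin N) :
    opT q x W d e = opR q x W d e + wt q x d e * opC W d := by
  rw [opR, opD_eq]; ring

theorem T_V_zero (b : ℕ) (d e : Fin N) :
    opT q x (V q x hq 0 b) d e
      = V q x hq 0 (b + 1) d e + q * qn q b * V q x hq (b + 1) 0 d e := by
  rw [opT_eq, C_V_zero, V_right_zero]
  have : V q x hq 0 b = π q x b := by funext c c'; simp [V]
  rw [this, R_π', qn_succ']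
  simp only [V, if_pos]
  ring

theorem T_V_le (hq0 : q ≠ 0) {a b : ℕ} (ha : 1 ≤ a) (hab : a ≤ b) (d e : Fin N) :
    opT q x (V q x hq a b) d e
      = V q x hq (b + 1) a d e
        + wt q x d e * (q * qn q (a - 1) * U q x a (a + b) d
          + q ^ (a + 1) * (q * qn q (b - 1)) * L q x a (a + b) d) := by
  rw [opT_eq, C_V_le q x hq ha hab, R_V_le q x hq hq0 ha hab, ← qn_pred q ha,
    ← qn_pred q (ha.trans hab)]
  ring

theorem T_V_gt (hq0 : q ≠ 0) {a b : ℕ} (hab : b < a) (d e : Fin N) :
    opT q x (V q x hq a b) d e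
      = V q x hq (b + 1) a d e
        + wt q x d e * (q * qn q b * U q x b (a + b) d
          + q ^ (b + 1) * (q * qn q (a - 1)) * L q x (b + 1) (a + b) d) := by
  rw [opT_eq, C_V_gt q x hq hab, R_V_gt q x hq hq0 hab, ← qn_pred q (show 1 ≤ a by omega)]
  rw [qn_succ' q b]
  ring

end Vale.Agent.P066
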