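import Mathlib
import Vale.Agent.P066.Window

/-!
P066: positive cones of formal expansions and the vertex-by-vertex induction for the chromatic
quasisymmetric function.
-/

namespace Vale.Agent.P066

open Finset

/-- the coefficient ring of the chromatic quasisymmetric function in `N` variables -/
abbrev Rg (N : ℕ) : Type := MvPolynomial (Fin N) (Polynomial ℤ)

/-- the variable `q` -/
noncomputable abbrev qv (N : ℕ) : Rg N := MvPolynomial.C Polynomial.X

/-- the colour variables -/
noncomputable abbrev xv (N : ℕ) : Fin N → Rg N := MvPolynomial.X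

theorem qv_ne_one (N : ℕ) : qv N ≠ 1 := by
  rw [qv, ← map_one MvPolynomial.C]
  intro h
  have h1 := congrArg (Polynomial.eval 0) (MvPolynomial.C_injective _ _ h)
  simp at h1

theorem qv_ne_zero (N : ℕ) : qv N ≠ 0 := by
  rw [qv, ← map_zero MvPolynomial.C]
  exact fun h => Polynomial.X_ne_zero (MvPolynomial.C_injective _ _ h)

theorem ee_eq_esymm (N k : ℕ) : ee (xv N) k = MvPolynomial.esymm (Fin N) (Polynomial ℤ) k := by
  rw [ee, eser, lp, prod_one_add, Polynomial.finsetSum_coeff, MvPolynomial.esymm,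
    powersetCard_eq_filter, sum_filter]
  apply sum_congr rfl
  intro t _
  rw [prod_mul_distrib, prod_const, ← map_prod, mul_comm, Polynomial.coeff_C_mul_X_pow]
  by_cases h : t.card = k
  · simp [h]
  · simp [h, Ne.symm h]

theorem β_zero {N : ℕ} {A : Type*} [CommRing A] (q : A) (x : Fin N → A) (c : Fin N) :
    β q x 0 c = x c := by
  simp [β, bser, Bp, lp, Polynomial.coeff_zero_prod, Polynomial.mul_coeff_zero]

theorem sum_Bp {N : ℕ} {S : Type*} [CommRing S] (q : S) (x : Fin N → S) (z : S) :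
    (q - 1) * z * ∑ c, Bp q x z c = lp x univ (q * z) - lp x univ z := by
  have h := prod_add_ordered (univ : Finset (Fin N)) (fun i => 1 + z * x i)
    (fun i => (q - 1) * z * x i)
  have e1 : ∀ i, 1 + z * x i + (q - 1) * z * x i = 1 + q * z * x i := fun i => by ring
  simp only [e1, filter_gt_eq_Iio, filter_lt_eq_Ioi] at h
  simp only [lp]
  rw [h, add_sub_cancel_left, mul_sum]
  apply sum_congr rfl
  intro c _
  rw [Bp, lp, lp]
  ring

theorem sum_β {N : ℕ} {A : Type*} [CommRing A] [IsDomain A] (q : A) (x : Fin N → A) (hq : q ≠ 1)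
    (j : ℕ) : ∑ c, β q x j c = qn q (j + 1) * ee x (j + 1) := by
  apply mul_left_cancel₀ (sub_ne_zero.2 hq.symm)
  have h := congrArg (fun p => p.coeff (j + 1))
    (sum_Bp (Polynomial.C q) (fun i => Polynomial.C (x i)) Polynomial.X)
  have e : lp (fun i => Polynomial.C (x i)) univ (Polynomial.C q * Polynomial.X)
      = (eser x).comp (Polynomial.C q * Polynomial.X) := by
    rw [eser, ← Polynomial.coe_compRingHom_apply, map_lp]
    simp
  simp only [e, mul_assoc, ← Polynomial.C_1, ← Polynomial.C_sub, Polynomial.coeff_C_mul,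
    Polynomial.coeff_X_mul, Polynomial.finsetSum_coeff, Polynomial.coeff_sub,
    coeff_comp_qX] at h
  change (q - 1) * ∑ c, β q x j c = q ^ (j + 1) * ee x (j + 1) - ee x (j + 1) at h
  linear_combination -h - ee x (j + 1) * qn_mul q (j + 1)

/-- families of functions with a number of variables as parameter, in the cone over `ℕ[q]` and
the elementary symmetric functions generated by `G` -/
inductive Pos {ι : ℕ → Type} (G : ℕ → (∀ N, ι N → Rg N) → Prop) :
    ℕ → (∀ N, ι N → Rg N) → Prop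
  | gen {n f} : G n f → Pos G n f
  | zero (n : ℕ) : Pos G n (fun _ _ => 0)
  | add {n f g} : Pos G n f → Pos G n g → Pos G n (fun N i => f N i + g N i)
  | qmul {n f} : Pos G n f → Pos G n (fun N i => qv N * f N i)
  | emul {n f} (k : ℕ) : Pos G n f → Pos G (n + k) (fun N i => ee (xv N) k * f N i)

namespace Pos

variable {ι κ : ℕ → Type} {G : ℕ → (∀ N, ι N → Rg N) → Prop}
  {H : ℕ → (∀ N, κ N → Rg N) → Prop}

theorem congr {n m : ℕ} {f g : ∀ N, ι N → Rg N} (h : Pos G n f) (hn : n = m)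
    (hf : ∀ N i, f N i = g N i) : Pos G m g := by
  have : f = g := by funext N i; exact hf N i
  subst this; subst hn; exact h

theorem qpow {n : ℕ} {f : ∀ N, ι N → Rg N} (h : Pos G n f) :
    ∀ k : ℕ, Pos G n (fun N i => qv N ^ k * f N i)
  | 0 => h.congr rfl (by simp)
  | k + 1 => (qpow h k).qmul.congr rfl (fun N i => by ring)

theorem qnmul {n : ℕ} {f : ∀ N, ι N → Rg N} (h : Pos G n f) :
    ∀ k : ℕ, Pos G n (fun N i => qn (qv N) k * f N i)
  | 0 => (Pos.zero n).congr rfl (by simp)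
  | k + 1 => ((qnmul h k).add (qpow h k)).congr rfl (fun N i => by rw [qn_succ]; ring)

theorem sum {n : ℕ} {α : Type*} (s : Finset α) (f : α → ∀ N, ι N → Rg N)
    (h : ∀ t ∈ s, Pos G n (f t)) : Pos G n (fun N i => ∑ t ∈ s, f t N i) := by
  induction s using Finset.cons_induction with
  | empty => exact (Pos.zero n).congr rfl (by simp)
  | cons a s ha ih =>
    exact ((h a (mem_cons_self a s)).add (ih fun t ht => h t (mem_cons_of_mem ht))).congr rfl
      (fun N i => by rw [sum_cons])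

theorem map (T : ∀ N, (ι N → Rg N) → κ N → Rg N) (s : ℕ)
    (hadd : ∀ N f g i, T N (fun j => f j + g j) i = T N f i + T N g i)
    (hmul : ∀ N a f i, T N (fun j => a * f j) i = a * T N f i)
    (hgen : ∀ n f, G n f → Pos H (n + s) (fun N => T N (f N)))
    {n : ℕ} {f : ∀ N, ι N → Rg N} (h : Pos G n f) : Pos H (n + s) (fun N => T N (f N)) := by
  induction h with
  | gen hg => exact hgen _ _ hg
  | zero n =>
    refine (Pos.zero _).congr rfl (fun N i => ?_)
    have := hmul N 0 (fun _ => 0) i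
    simp only [mul_zero, zero_mul] at this
    exact this.symm
  | add _ _ ih1 ih2 => exact (ih1.add ih2).congr rfl (fun N i => (hadd N _ _ i).symm)
  | qmul _ ih => exact ih.qmul.congr rfl (fun N i => (hmul N _ _ i).symm)
  | emul k _ ih => exact (ih.emul k).congr (by omega) (fun N i => (hmul N _ _ i).symm)

end Pos

/-- scalar generator -/
def G0 (n : ℕ) (f : ∀ N, Unit → Rg N) : Prop := n = 0 ∧ ∀ N u, f N u = 1

/-- one-pin generators -/
def G1 (n : ℕ) (f : ∀ N, Fin N → Rg N) : Prop :=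
  ∃ j, n = j + 1 ∧ ∀ N c, f N c = β (qv N) (xv N) j c

/-- two-pin generators -/
def G2 (n : ℕ) (f : ∀ N, Fin N × Fin N → Rg N) : Prop :=
  ∃ a b, n = a + b + 2 ∧
    ∀ N p, f N p = V (qv N) (xv N) (qv_ne_one N) a b p.1 p.2

/-- positive scalar families -/
def P0 (n : ℕ) (f : ∀ N, Rg N) : Prop := Pos G0 n (fun N _ => f N)

/-- positive one-pin families -/
def P1 (n : ℕ) (f : ∀ N, Fin N → Rg N) : Prop := Pos G1 n f

/-- positive two-pin families -/
def P2 (n : ℕ) (f : ∀ N, Fin N → Fin N → Rg N) : Prop := Pos G2 n (fun N p => f N p.1 p.2)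

theorem P1_β (j : ℕ) : P1 (j + 1) (fun N => β (qv N) (xv N) j) :=
  Pos.gen ⟨j, rfl, fun _ _ => rfl⟩

theorem P2_V (a b : ℕ) :
    P2 (a + b + 2) (fun N => V (qv N) (xv N) (qv_ne_one N) a b) :=
  Pos.gen ⟨a, b, rfl, fun _ _ => rfl⟩

theorem P1_sum {n : ℕ} {f : ∀ N, Fin N → Rg N} (h : P1 n f) : P0 n (fun N => ∑ c, f N c) := by
  refine Pos.map (ι := fun N => Fin N) (κ := fun _ => Unit) (G := G1) (H := G0) (f := f)
    (fun N v _ => ∑ c, v c) 0 ?_ ?_ ?_ h
  · intros; exact sum_add_distrib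
  · intros; exact (mul_sum _ _ _).symm
  · rintro n f ⟨j, rfl, hf⟩
    have h1 : Pos G0 0 (fun _ _ => 1) := Pos.gen ⟨rfl, fun _ _ => rfl⟩
    refine ((h1.emul (j + 1)).qnmul (j + 1)).congr (by omega) (fun N i => ?_)
    show _ = ∑ c, f N c
    simp only [hf]
    rw [mul_one, sum_β _ _ (qv_ne_one N)]

theorem P0_xmul {n : ℕ} {f : ∀ N, Rg N} (h : P0 n f) :
    P1 (n + 1) (fun N c => xv N c * f N) := by
  refine Pos.map (ι := fun _ => Unit) (κ := fun N => Fin N) (G := G0) (H := G1)
    (f := fun N _ => f N) (fun N v c => xv N c * v ()) 1 ?_ ?_ ?_ h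
  · intros; ring
  · intros; ring
  · rintro n f ⟨rfl, hf⟩
    refine (P1_β 0).congr rfl (fun N c => ?_)
    rw [β_zero, hf]; ring

theorem P1_opD {n : ℕ} {f : ∀ N, Fin N → Rg N} (h : P1 n f) :
    P2 (n + 1) (fun N => opD (qv N) (xv N) (f N)) := by
  refine Pos.map (ι := fun N => Fin N) (κ := fun N => Fin N × Fin N) (G := G1) (H := G2) (f := f)
    (fun N v p => opD (qv N) (xv N) v p.1 p.2) 1 ?_ ?_ ?_ h
  · intro N f g p; simp only [opD_eq]; ring
  · intro N a f p; simp only [opD_eq]; ring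
  · rintro n f ⟨j, rfl, hf⟩
    refine Pos.gen ⟨j, 0, by omega, fun N p => ?_⟩
    show opD (qv N) (xv N) (f N) p.1 p.2 = _
    rw [opD_eq, V_right_zero, hf]

theorem P1_U {m n : ℕ} (h : m ≤ n + 1) : P1 (n + 2) (fun N => U (qv N) (xv N) m n) := by
  refine (Pos.sum (range (m + 1))
    (fun k N c => qv N ^ k * (qn (qv N) (m + 1 - k) * eb (qv N) (xv N) (n + 1) k c)) ?_).congr rfl
    (fun N c => sum_congr rfl fun k _ => (mul_assoc _ _ _).symm)
  intro k hk
  have := mem_range.1 hk
  have := ((P1_β (n + 1 - k)).emul k).qnmul (m + 1 - k)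
  exact (this.qpow k).congr (by omega) (fun N c => rfl)

theorem P1_L {m n : ℕ} (h : m ≤ n + 2) : P1 (n + 2) (fun N => L (qv N) (xv N) m n) := by
  refine (Pos.sum (range m)
    (fun p N c => qn (qv N) (m - p) * ef (qv N) (xv N) (n + 1) p c) ?_).congr rfl
    (fun N c => rfl)
  intro p hp
  have := mem_range.1 hp
  exact (((P1_β p).emul (n + 1 - p)).qnmul (m - p)).congr (by omega) (fun N c => rfl)

theorem P2_opC {n : ℕ} {f : ∀ N, Fin N → Fin N → Rg N} (h : P2 n f) :
    P1 n (fun N => opC (f N)) := by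
  refine Pos.map (ι := fun N => Fin N × Fin N) (κ := fun N => Fin N) (G := G2) (H := G1)
    (f := fun N p => f N p.1 p.2) (fun N v => opC (fun c d => v (c, d))) 0 ?_ ?_ ?_ h
  · intro N f g c; exact opC_add _ _ c
  · intro N a f c; exact opC_smul _ _ c
  · rintro n f ⟨a, b, rfl, hf⟩
    rcases Nat.eq_zero_or_pos a with rfl | ha
    · refine ((P1_β (b + 1)).qnmul (b + 1)).congr (by omega) (fun N c => ?_)
      simp only [hf, C_V_zero]
    rcases le_or_gt a b with hab | hab
    · refine (((P1_U (m := a) (n := a + b) (by omega)).qnmul a).add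
        (((P1_L (m := a) (n := a + b) (by omega)).qnmul b).qpow (a + 1))).congr rfl
        (fun N c => ?_)
      simp only [hf, C_V_le _ _ (qv_ne_one N) ha hab]
      ring
    · refine (((P1_U (m := b) (n := a + b) (by omega)).qnmul (b + 1)).add
        (((P1_L (m := b + 1) (n := a + b) (by omega)).qnmul a).qpow (b + 1))).congr rfl
        (fun N c => ?_)
      simp only [hf, C_V_gt _ _ (qv_ne_one N) hab]
      ring

theorem P2_opT {n : ℕ} {f : ∀ N, Fin N → Fin N → Rg N} (h : P2 n f) :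
    P2 (n + 1) (fun N => opT (qv N) (xv N) (f N)) := by
  refine Pos.map (ι := fun N => Fin N × Fin N) (κ := fun N => Fin N × Fin N) (G := G2) (H := G2)
    (f := fun N p => f N p.1 p.2) (fun N v p => opT (qv N) (xv N) (fun c d => v (c, d)) p.1 p.2) 1
    ?_ ?_ ?_ h
  · intro N f g p
    simp only [opT_eq, opR_add, opC_add]; ring
  · intro N a f p
    simp only [opT_eq, opR_smul, opC_smul]; ring
  · rintro n f ⟨a, b, rfl, hf⟩
    rcases Nat.eq_zero_or_pos a with rfl | ha
    · refine Pos.congr ((P2_V 0 (b + 1)).add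
        (((P2_V (b + 1) 0).congr (by omega) (fun _ _ => rfl)).qnmul b).qmul) (by omega)
        (fun N p => ?_)
      simp only [hf, T_V_zero]
      ring
    rcases le_or_gt a b with hab | hab
    · have hD := P1_opD ((((P1_U (m := a) (n := a + b) (by omega)).qnmul (a - 1)).qmul).add
        ((((P1_L (m := a) (n := a + b) (by omega)).qnmul (b - 1)).qmul).qpow (a + 1)))
      refine Pos.congr ((P2_V (b + 1) a).add (Pos.congr hD (by omega) (fun _ _ => rfl)))
        (by omega) (fun N p => ?_)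
      simp only [hf, T_V_le _ _ (qv_ne_one N) (qv_ne_zero N) ha hab, opD_eq]
      ring
    · have hD := P1_opD ((((P1_U (m := b) (n := a + b) (by omega)).qnmul b).qmul).add
        ((((P1_L (m := b + 1) (n := a + b) (by omega)).qnmul (a - 1)).qmul).qpow (b + 1)))
      refine Pos.congr ((P2_V (b + 1) a).add (Pos.congr hD (by omega) (fun _ _ => rfl)))
        (by omega) (fun N p => ?_)
      simp only [hf, T_V_gt _ _ (qv_ne_one N) (qv_ne_zero N) hab, opD_eq]
      ring

/-- add a part to a partition -/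
def addPart {n : ℕ} (k : ℕ) (μ : n.Partition) : (n + k).Partition :=
  Nat.Partition.ofSums (n + k) (k ::ₘ μ.parts) (by simp [μ.parts_sum, add_comm])

theorem esymmPart_ofSums (σ : Type*) [Fintype σ] (R : Type*) [CommSemiring R] (n : ℕ)
    (l : Multiset ℕ) (hl : l.sum = n) :
    MvPolynomial.esymmPart σ R (Nat.Partition.ofSums n l hl)
      = (l.map (MvPolynomial.esymm σ R)).prod := by
  conv_rhs => rw [← Multiset.filter_add_not (fun i => i ≠ 0) l, Multiset.map_add,
    Multiset.prod_add]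
  rw [MvPolynomial.esymmPart]
  refine (mul_one _).symm.trans (congrArg _ (Eq.symm ?_))
  apply Multiset.prod_eq_one
  intro y hy
  obtain ⟨i, hi, rfl⟩ := Multiset.mem_map.1 hy
  rw [not_not.1 (Multiset.mem_filter.1 hi).2, MvPolynomial.esymm_zero]

/-- the expansion of a positive scalar family -/
theorem P0_expansion {n : ℕ} {f : ∀ N, Rg N} (h : P0 n f) :
    ∃ c : n.Partition → Polynomial ℕ, ∀ N,
      f N = ∑ μ, MvPolynomial.C ((c μ).map (Nat.castRingHom ℤ))
        * MvPolynomial.esymmPart (Fin N) (Polynomial ℤ) μ := by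
  suffices ∀ g : ∀ N, Unit → Rg N, Pos G0 n g →
      ∃ c : n.Partition → Polynomial ℕ, ∀ N,
        g N () = ∑ μ, MvPolynomial.C ((c μ).map (Nat.castRingHom ℤ))
          * MvPolynomial.esymmPart (Fin N) (Polynomial ℤ) μ from this _ h
  clear h f
  intro g hg
  induction hg with
  | gen hG =>
    obtain ⟨rfl, hf⟩ := hG
    refine ⟨fun _ => 1, fun N => ?_⟩
    rw [Fintype.sum_unique, hf, Polynomial.map_one, map_one, one_mul]
    simp [MvPolynomial.esymmPart]
  | zero n => exact ⟨0, fun N => by simp⟩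
  | add _ _ ih1 ih2 =>
    obtain ⟨c, hc⟩ := ih1
    obtain ⟨d, hd⟩ := ih2
    exact ⟨c + d, fun N => by simp [hc, hd, add_mul, sum_add_distrib]⟩
  | qmul _ ih =>
    obtain ⟨c, hc⟩ := ih
    refine ⟨fun μ => Polynomial.X * c μ, fun N => ?_⟩
    simp [hc, mul_sum, mul_assoc]
  | @emul n f k _ ih =>
    obtain ⟨c, hc⟩ := ih
    refine ⟨fun μ' => ∑ μ ∈ univ.filter (fun μ => addPart k μ = μ'), c μ, fun N => ?_⟩
    show ee (xv N) k * f N () = _
    simp only [hc, mul_sum, Polynomial.map_sum, map_sum, sum_mul]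
    rw [← sum_fiberwise univ (addPart k)]
    apply sum_congr rfl
    intro μ' _
    apply sum_congr rfl
    intro μ hμ
    rw [← (mem_filter.1 hμ).2, addPart, esymmPart_ofSums, Multiset.map_cons, Multiset.prod_cons,
      ee_eq_esymm, MvPolynomial.esymmPart]
    ring

section graph

variable (e : ℕ → ℕ)

/-- weight of an edge from colour `c` (smaller vertex) to colour `d` -/
noncomputable def kk (N : ℕ) (c d : Fin N) : Rg N := if c = d then 0 else qq (qv N) c d

/-- weight of a colouring, the vertex `b` being joined to the `e b` vertices before it -/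
noncomputable def cw (n N : ℕ) (f : Fin n → Fin N) : Rg N :=
  (∏ a, xv N (f a)) * ∏ b : Fin n, ∏ a : Fin n,
    if (a : ℕ) < b ∧ (b : ℕ) ≤ a + e b then kk N (f a) (f b) else 1

theorem cw_snoc (n N : ℕ) (g : Fin n → Fin N) (c : Fin N) :
    cw e (n + 1) N (Fin.snoc g c)
      = cw e n N g * xv N c * ∏ a : Fin n, if n ≤ a + e n then kk N (g a) c else 1 := by
  simp only [cw, Fin.prod_univ_castSucc, Fin.snoc_castSucc, Fin.snoc_last, Fin.val_last,
    Fin.val_castSucc, lt_irrefl, false_and, if_false, mul_one]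
  have h1 : ∀ b : Fin n, ¬ (n < (b : ℕ) ∧ (b : ℕ) ≤ n + e b) := fun b => by omega
  have h2 : ∀ a : Fin n, ((a : ℕ) < n ∧ n ≤ a + e n) = (n ≤ a + e n) := fun a =>
    propext ⟨fun h => h.2, fun h => ⟨a.isLt, h⟩⟩
  simp only [h1, h2, if_false, mul_one]
  ring

/-- all colourings -/
noncomputable def S0 (n N : ℕ) : Rg N := ∑ f : Fin n → Fin N, cw e n N f

/-- colourings with given colour of the last vertex -/
noncomputable def S1 (m N : ℕ) (c : Fin N) : Rg N :=
  ∑ g : Fin m → Fin N, cw e (m + 1) N (Fin.snoc g c)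

/-- colourings with given colours of the last two vertices -/
noncomputable def S2 (m N : ℕ) (c d : Fin N) : Rg N :=
  ∑ g : Fin m → Fin N, cw e (m + 2) N (Fin.snoc (Fin.snoc g c) d)

theorem sum_snoc {n N : ℕ} {M : Type*} [AddCommMonoid M] (F : (Fin (n + 1) → Fin N) → M) :
    ∑ f, F f = ∑ c : Fin N, ∑ g : Fin n → Fin N, F (Fin.snoc g c) := by
  rw [← (Fin.snocEquiv fun _ => Fin N).sum_comp, Fintype.sum_prod_type]
  rfl

theorem S0_zero (N : ℕ) : S0 e 0 N = 1 := by simp [S0, cw]

theorem S0_succ (m N : ℕ) : S0 e (m + 1) N = ∑ c, S1 e m N c := sum_snoc _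

theorem S1_zero (m N : ℕ) (h : e m = 0) (c : Fin N) : S1 e m N c = xv N c * S0 e m N := by
  rw [S1, S0, mul_sum]
  apply sum_congr rfl
  intro g _
  rw [cw_snoc, h, prod_eq_one (fun a _ => if_neg (by omega)), mul_one, mul_comm]

theorem prod_last_one {m N : ℕ} (h : 1 ≤ e (m + 1)) (h2 : e (m + 1) ≤ 1) (g : Fin (m + 1) → Fin N)
    (d : Fin N) :
    (∏ a : Fin (m + 1), if m + 1 ≤ a + e (m + 1) then kk N (g a) d else 1)
      = kk N (g (Fin.last m)) d := by
  rw [Fin.prod_univ_castSucc, prod_eq_one, one_mul, if_pos]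
  · simp; omega
  · intro a _
    apply if_neg
    simp; omega

theorem S2_diag (m N : ℕ) (h : 1 ≤ e (m + 1)) (d : Fin N) : S2 e m N d d = 0 := by
  apply sum_eq_zero
  intro g _
  rw [cw_snoc, prod_eq_zero (mem_univ (Fin.last m)), mul_zero]
  rw [if_pos (by simp; omega), Fin.snoc_last, kk, if_pos rfl]

theorem S1_C (m N : ℕ) (h : 1 ≤ e (m + 1)) (d : Fin N) :
    S1 e (m + 1) N d = opC (S2 e m N) d := by
  rw [S1, sum_snoc, opC, sum_filter]
  apply sum_congr rfl
  intro c _
  by_cases hc : c = d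
  · rw [if_neg (not_not.2 hc), ← S2_diag e m N h d, hc]; rfl
  · rw [if_pos hc]; rfl

theorem S2_D (m N : ℕ) (h : e (m + 1) = 1) (d c : Fin N) :
    S2 e m N d c = opD (qv N) (xv N) (S1 e m N) d c := by
  rw [S2, opD_eq, S1, mul_sum]
  apply sum_congr rfl
  intro g _
  rw [cw_snoc, prod_last_one e h.ge h.le, Fin.snoc_last]
  unfold kk wt
  split_ifs <;> ring

theorem S2_T (m N : ℕ) (h : e (m + 2) = 2) (h' : 1 ≤ e (m + 1)) (d c : Fin N) :
    S2 e (m + 1) N d c = opT (qv N) (xv N) (S2 e m N) d c := by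
  have hp : ∀ (g : Fin m → Fin N) (u : Fin N),
      cw e (m + 3) N (Fin.snoc (Fin.snoc (Fin.snoc g u) d) c)
        = cw e (m + 2) N (Fin.snoc (Fin.snoc g u) d) * xv N c * (kk N u c * kk N d c) := by
    intro g u
    rw [cw_snoc e (m + 2), h]
    congr 1
    rw [Fin.prod_univ_castSucc, Fin.prod_univ_castSucc, prod_eq_one, one_mul, if_pos, if_pos]
    · simp only [Fin.snoc_castSucc, Fin.snoc_last]
    · simp
    · simp
    · intro a _
      apply if_neg
      simp
  rw [S2, sum_snoc]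
  simp only [hp, ← sum_mul]
  unfold opT
  by_cases hdc : d = c
  · rw [if_pos hdc]
    simp [kk, hdc]
  · rw [if_neg hdc, sum_filter, mul_sum]
    apply sum_congr rfl
    intro u _
    show S2 e m N u d * xv N c * _ = _
    unfold kk
    by_cases hud : u = d
    · subst hud
      rw [S2_diag e m N h', if_neg (show ¬ (u ≠ u ∧ u ≠ c) by tauto)]
      ring
    by_cases huc : u = c
    · subst huc
      rw [if_pos rfl, if_neg (show ¬ (u ≠ d ∧ u ≠ u) by tauto)]
      ring
    rw [if_neg huc, if_neg hdc, if_pos ⟨hud, huc⟩]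
    ring

theorem all_positive (he0 : ∀ b, e b ≤ b) (he2 : ∀ b, e b ≤ 2)
    (he3 : ∀ b, e (b + 1) = 2 → 1 ≤ e b) (m : ℕ) :
    P0 m (S0 e m) ∧ P1 (m + 1) (S1 e m) ∧ (1 ≤ e (m + 1) → P2 (m + 2) (S2 e m)) := by
  induction m with
  | zero =>
    have hA : P0 0 (S0 e 0) := Pos.gen ⟨rfl, fun N _ => S0_zero e N⟩
    have hB : P1 1 (S1 e 0) :=
      (P0_xmul hA).congr rfl (fun N c => (S1_zero e 0 N (by have := he0 0; omega) c).symm)
    refine ⟨hA, hB, fun h => ?_⟩
    exact (P1_opD hB).congr rfl (fun N p => (S2_D e 0 N (by have := he0 (0 + 1); omega) p.1 p.2).symm)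
  | succ m ih =>
    obtain ⟨_, hB, hC⟩ := ih
    have hA' : P0 (m + 1) (S0 e (m + 1)) :=
      (P1_sum hB).congr rfl (fun N _ => (S0_succ e m N).symm)
    have hB' : P1 (m + 2) (S1 e (m + 1)) := by
      rcases Nat.eq_zero_or_pos (e (m + 1)) with h | h
      · exact (P0_xmul hA').congr rfl (fun N c => (S1_zero e _ N h c).symm)
      · exact (P2_opC (hC h)).congr rfl (fun N c => (S1_C e m N h c).symm)
    refine ⟨hA', hB', fun h => ?_⟩
    rcases (show e (m + 2) = 1 ∨ e (m + 2) = 2 by have := he2 (m + 1 + 1); simp only [Nat.reduceAdd, add_assoc] at *; omega) with h1 | h2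
    · exact (P1_opD hB').congr rfl (fun N p => (S2_D e (m + 1) N h1 p.1 p.2).symm)
    · have h3 := he3 (m + 1) h2
      exact (P2_opT (hC h3)).congr rfl (fun N p => (S2_T e m N h2 h3 p.1 p.2).symm)

end graph

end Vale.Agent.P066
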