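import Mathlib
import Vale.Agent.P066.Chrom

/-!
P066: expansion for band width two, and the coefficient tools for partitions with parts at most three.
-/

namespace Vale.Agent.P066

open Finset

theorem band_expansion (n : ℕ) (h : Fin n → Fin n) (hmono : Monotone h) (_hle : ∀ i, i ≤ h i)
    (hband : ∀ i, (h i : ℕ) ≤ (i : ℕ) + 2) :
    ∃ c : n.Partition → Polynomial ℕ, ∀ N : ℕ,
      (∑ f ∈ (univ : Finset (Fin n → Fin N)).filter
          (fun f => ∀ a b, a < b → b ≤ h a → f a ≠ f b),
        MvPolynomial.C ((Polynomial.X : Polynomial ℤ) ^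
          ((univ : Finset (Fin n × Fin n)).filter
            (fun p => p.1 < p.2 ∧ p.2 ≤ h p.1 ∧ f p.1 < f p.2)).card)
          * ∏ a, MvPolynomial.X (f a))
      = ∑ μ : n.Partition, MvPolynomial.C ((c μ).map (Nat.castRingHom ℤ))
          * MvPolynomial.esymmPart (Fin N) (Polynomial ℤ) μ := by
  set H : ℕ → ℕ := fun a => if ha : a < n then (h ⟨a, ha⟩ : ℕ) else 0 with hH
  have Hval : ∀ a : Fin n, H a = (h a : ℕ) := fun a => by simp [hH, a.isLt]
  set e : ℕ → ℕ := fun b => if b < n then
    (if 2 ≤ b ∧ b ≤ H (b - 2) then 2 else if 1 ≤ b ∧ b ≤ H (b - 1) then 1 else 0) else 0 with he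
  have Hmono : ∀ a b, a ≤ b → b < n → H a ≤ H b := by
    intro a b hab hb
    have := hmono (show (⟨a, by omega⟩ : Fin n) ≤ ⟨b, hb⟩ from hab)
    simpa [hH, hb, show a < n by omega] using this
  have he0 : ∀ b, e b ≤ b := fun b => by simp only [he]; split_ifs <;> omega
  have he2 : ∀ b, e b ≤ 2 := fun b => by simp only [he]; split_ifs <;> omega
  have he3 : ∀ b, e (b + 1) = 2 → 1 ≤ e b := by
    intro b hb
    simp only [he] at hb ⊢
    split_ifs at hb with h1 h2 <;> try omega
    rw [show b + 1 - 2 = b - 1 by omega] at h2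
    split_ifs <;> omega
  have hadj : ∀ a b : Fin n, ((a : ℕ) < b ∧ (b : ℕ) ≤ a + e b) ↔ (a < b ∧ b ≤ h a) := by
    intro a b
    have hb := b.isLt
    rw [Fin.lt_def, Fin.le_def]
    refine and_congr_right fun hab => ?_
    have h1 : H a ≤ (a : ℕ) + 2 := by rw [Hval]; exact hband a
    rw [← Hval a]
    simp only [he, if_pos hb]
    have h2 : ∀ k, (a : ℕ) = (b : ℕ) - k → H a = H ((b : ℕ) - k) := fun k hk => by rw [hk]
    split_ifs with h3 h4
    · constructor
      · intro h5
        have := Hmono ((b : ℕ) - 2) a (by omega) a.isLt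
        omega
      · omega
    · constructor
      · intro h5
        have := h2 1 (by omega)
        omega
      · intro h5
        by_contra h6
        have := h2 2 (by omega)
        omega
    · constructor
      · intro h5; omega
      · intro h5
        rcases (show (a : ℕ) = (b : ℕ) - 1 ∨ (a : ℕ) = (b : ℕ) - 2 ∧ 2 ≤ (b : ℕ) by omega)
          with h6 | ⟨h6, h7⟩
        · have := h2 1 h6
          omega
        · have := h2 2 h6
          omega
  obtain ⟨c, hc⟩ := P0_expansion (all_positive e he0 he2 he3 n).1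
  refine ⟨c, fun N => ?_⟩
  rw [← hc, S0, sum_filter]
  apply sum_congr rfl
  intro f _
  split_ifs with hp
  · rw [cw, mul_comm, map_pow, card_filter, ← prod_pow_eq_pow_sum, Fintype.prod_prod_type,
      prod_comm]
    congr 1
    apply prod_congr rfl
    intro b _
    apply prod_congr rfl
    intro a _
    by_cases h1 : a < b ∧ b ≤ h a
    · rw [if_pos ((hadj a b).2 h1), kk, if_neg (hp a b h1.1 h1.2), qq]
      by_cases h2 : f a < f b
      · rw [if_pos h2, if_pos ⟨h1.1, h1.2, h2⟩, pow_one]
      · rw [if_neg h2, if_neg (fun h3 => h2 h3.2.2), pow_zero]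
    · rw [if_neg (mt (hadj a b).1 h1), if_neg (fun h2 => h1 ⟨h2.1, h2.2.1⟩), pow_zero]
  · push Not at hp
    obtain ⟨a, b, h1, h2, h3⟩ := hp
    rw [cw]
    refine (mul_eq_zero_of_right _ (prod_eq_zero (mem_univ b) ?_)).symm
    exact prod_eq_zero (mem_univ a) (by rw [if_pos ((hadj a b).2 ⟨h1, h2⟩), kk, if_pos h3])

/-- index of a part among three variables -/
def idx3 (k : ℕ) : Fin 3 := if k ≤ 1 then 0 else if k = 2 then 1 else 2

theorem prod_map_X {σ R : Type*} [CommSemiring R] [DecidableEq σ] (s : Multiset σ) :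
    (s.map (MvPolynomial.X : σ → MvPolynomial σ R)).prod
      = MvPolynomial.monomial (Multiset.toFinsupp s) 1 := by
  induction s using Multiset.induction with
  | empty => simp
  | cons a s ih =>
    rw [Multiset.map_cons, Multiset.prod_cons, ih, MvPolynomial.X, MvPolynomial.monomial_mul,
      ← Multiset.singleton_add, map_add, Multiset.toFinsupp_singleton, one_mul]

/-- the elementary products with parts at most three are independent in three variables -/
theorem three_var_unique {n : ℕ} (d : n.Partition → Polynomial ℤ)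
    (h : ∑ μ : n.Partition,
      MvPolynomial.C (d μ) * MvPolynomial.esymmPart (Fin 3) (Polynomial ℤ) μ = 0)
    (μ₀ : n.Partition) (h₀ : ∀ k ∈ μ₀.parts, k ≤ 3) : d μ₀ = 0 := by
  classical
  set S := (univ : Finset n.Partition).filter (fun μ => ∀ k ∈ μ.parts, k ≤ 3) with hS
  have hbig : ∀ μ : n.Partition, μ ∉ S →
      MvPolynomial.esymmPart (Fin 3) (Polynomial ℤ) μ = 0 := by
    intro μ hμ
    simp only [hS, mem_filter, mem_univ, true_and, not_forall] at hμ
    obtain ⟨k, hk, hk3⟩ := hμ
    apply Multiset.prod_eq_zero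
    refine Multiset.mem_map.2 ⟨k, hk, ?_⟩
    rw [MvPolynomial.esymm, powersetCard_eq_empty.2 (by simp; omega), sum_empty]
  set p : MvPolynomial (Fin 3) (Polynomial ℤ) :=
    ∑ μ ∈ S, MvPolynomial.monomial (Multiset.toFinsupp (μ.parts.map idx3)) (d μ) with hp
  have hp0 : p = 0 := by
    apply MvPolynomial.esymmAlgHom_fin_injective (R := Polynomial ℤ) (le_refl 3)
    rw [map_zero]
    apply Subtype.ext
    rw [ZeroMemClass.coe_zero, MvPolynomial.esymmAlgHom_apply, hp, map_sum]
    conv_rhs => rw [← h, ← sum_subset (subset_univ S) (fun μ _ hμ => by rw [hbig μ hμ, mul_zero])]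
    apply sum_congr rfl
    intro μ hμ
    simp only [hS, mem_filter, mem_univ, true_and] at hμ
    rw [← mul_one (d μ), ← MvPolynomial.C_mul_monomial, ← prod_map_X, map_mul,
      MvPolynomial.aeval_C, map_multiset_prod, Multiset.map_map, Multiset.map_map, mul_one,
      MvPolynomial.esymmPart, MvPolynomial.algebraMap_eq]
    congr 2
    apply Multiset.map_congr rfl
    intro k hk
    have h1 := hμ k hk
    have h2 := μ.parts_pos hk
    simp only [Function.comp_apply, MvPolynomial.aeval_X]
    interval_cases k <;> rfl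
  have h1 := congrArg (MvPolynomial.coeff (Multiset.toFinsupp (μ₀.parts.map idx3))) hp0
  rw [hp, MvPolynomial.coeff_sum, MvPolynomial.coeff_zero, sum_eq_single μ₀] at h1
  · rwa [MvPolynomial.coeff_monomial, if_pos rfl] at h1
  · intro μ hμ hne
    rw [MvPolynomial.coeff_monomial, if_neg]
    intro heq
    apply hne
    apply Nat.Partition.ext
    simp only [hS, mem_filter, mem_univ, true_and] at hμ
    have heq' := Multiset.toFinsupp.injective heq
    have back : ∀ ν : n.Partition, (∀ k ∈ ν.parts, k ≤ 3) →
        ν.parts = (ν.parts.map idx3).map (fun i : Fin 3 => (i : ℕ) + 1) := by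
      intro ν hν
      rw [Multiset.map_map]
      conv_lhs => rw [← Multiset.map_id' ν.parts]
      apply Multiset.map_congr rfl
      intro k hk
      have h1 := hν k hk
      have h2 := ν.parts_pos hk
      interval_cases k <;> rfl
    rw [back μ hμ, back μ₀ h₀, heq']
  · intro hnot
    exact absurd (by simp [hS]; exact h₀) hnot

end Vale.Agent.P066
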