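import Mathlib
import Vale.Agent.P066.Chrom

/-!
P066: pinned colour functions in exactly `N` colours, the exchange relations they satisfy, and the
linear rule that computes forgetting the oldest pin from the value at the lowest colours alone.
-/

namespace Vale.Agent.P066.Colour

open Finset

variable {N : ℕ}

/-- exchange of two colours -/
noncomputable def sR (i j : Fin N) : Rg N →+* Rg N :=
  (MvPolynomial.rename (Equiv.swap i j)).toRingHom

theorem sR_C (i j : Fin N) (a : Polynomial ℤ) : sR i j (MvPolynomial.C a) = MvPolynomial.C a := by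
  simp [sR]

theorem sR_q (i j : Fin N) : sR i j (qv N) = qv N := sR_C i j _

theorem sR_x (i j k : Fin N) : sR i j (xv N k) = xv N (Equiv.swap i j k) := by simp [sR]

theorem sR_sR (i j : Fin N) (a : Rg N) : sR i j (sR i j a) = a := by
  simp only [sR, AlgHom.toRingHom_eq_coe, RingHom.coe_coe, MvPolynomial.rename_rename]
  rw [show (⇑(Equiv.swap i j) ∘ ⇑(Equiv.swap i j)) = id from funext fun k => by simp,
    MvPolynomial.rename_id_apply]

/-- new vertex, of colour the last entry, adjacent to all pins -/
noncomputable def opE {w : ℕ} (F : (Fin w → Fin N) → Rg N) (u : Fin (w + 1) → Fin N) : Rg N :=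
  F (Fin.init u) * xv N (u (Fin.last w)) * ∏ a : Fin w, kk N (Fin.init u a) (u (Fin.last w))

/-- forget the oldest pin -/
noncomputable def opF {w : ℕ} (F : (Fin (w + 1) → Fin N) → Rg N) (t : Fin w → Fin N) : Rg N :=
  ∑ c, F (Fin.cons c t)

/-- supported on injective pin tuples, with the three exchange relations of adjacent colours -/
structure Good {w : ℕ} (F : (Fin w → Fin N) → Rg N) : Prop where
  inj : ∀ t, ¬ Function.Injective t → F t = 0
  none_ : ∀ i j : Fin N, (j : ℕ) = i + 1 → ∀ t, (∀ a, t a ≠ i) → (∀ a, t a ≠ j) →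
    sR i j (F t) = F t
  one_ : ∀ i j : Fin N, (j : ℕ) = i + 1 → ∀ t, Function.Injective t → (∃ a, t a = i) →
    (∀ a, t a ≠ j) →
    (xv N j - qv N * xv N i) * sR i j (F t)
      = (1 - qv N) * xv N j * F t + (xv N j - xv N i) * F (fun a => Equiv.swap i j (t a))
  two_ : ∀ i j : Fin N, (j : ℕ) = i + 1 → ∀ t, Function.Injective t →
    (∃ a b, a < b ∧ t a = i ∧ t b = j) →
    (xv N j - qv N * xv N i) * sR i j (F t)
      = (1 - qv N) * xv N i * F t + qv N * (xv N j - xv N i) * F (fun a => Equiv.swap i j (t a))

theorem ne_of_succ {i j : Fin N} (h : (j : ℕ) = i + 1) : i ≠ j := by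
  intro e; subst e; omega

theorem xsub_ne {i j : Fin N} (h : i ≠ j) : xv N j - xv N i ≠ 0 :=
  sub_ne_zero.2 fun e => h (MvPolynomial.X_injective e).symm

theorem kk_swap {i j : Fin N} (h : (j : ℕ) = i + 1) (c d : Fin N)
    (hcd : ¬ (c = i ∧ d = j)) (hdc : ¬ (c = j ∧ d = i)) :
    kk N (Equiv.swap i j c) (Equiv.swap i j d) = kk N c d := by
  by_cases he : c = d
  · subst he; simp [kk]
  rw [kk, kk, if_neg he, if_neg (fun e => he ((Equiv.swap i j).injective e)), qq, qq]
  have h1 : (Equiv.swap i j c < Equiv.swap i j d) ↔ c < d := by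
    have hij := ne_of_succ h
    simp only [Equiv.swap_apply_def, Fin.ext_iff, Fin.lt_def] at hij hcd hdc he ⊢
    split_ifs <;> omega
  simp only [h1]

theorem init_inj {w : ℕ} {u : Fin (w + 1) → Fin N} (h : Function.Injective u) :
    Function.Injective (Fin.init u) :=
  fun _ _ e => Fin.castSucc_injective _ (h e)

theorem Good.opE {w : ℕ} {F : (Fin w → Fin N) → Rg N} (hF : Good F) : Good (opE F) := by
  have hinit : ∀ (i j : Fin N) (u : Fin (w + 1) → Fin N),
      Fin.init (fun a => Equiv.swap i j (u a)) = fun a => Equiv.swap i j (Fin.init u a) :=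
    fun _ _ _ => rfl
  have hsk : ∀ i j c d : Fin N, sR i j (kk N c d) = kk N c d := by
    intro i j c d; unfold kk qq; split_ifs <;> simp [sR_q]
  refine ⟨fun u hu => ?_, fun i j h u h1 h2 => ?_, fun i j h u hu h1 h2 => ?_,
    fun i j h u hu h1 => ?_⟩
  · by_cases h' : Function.Injective (Fin.init u)
    · rw [Colour.opE, mul_eq_zero_of_right]
      have : ∃ a : Fin w, Fin.init u a = u (Fin.last w) := by
        by_contra hne
        push Not at hne
        apply hu
        intro a b e
        induction a using Fin.lastCases with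
        | last =>
          induction b using Fin.lastCases with
          | last => rfl
          | cast b => exact absurd e.symm (hne b)
        | cast a =>
          induction b using Fin.lastCases with
          | last => exact absurd e (hne a)
          | cast b => exact congrArg Fin.castSucc (h' e)
      obtain ⟨a, ha⟩ := this
      exact prod_eq_zero (mem_univ a) (by rw [kk, if_pos ha])
    · rw [Colour.opE, hF.inj _ h', zero_mul, zero_mul]
  · simp only [Colour.opE, map_mul, map_prod, hsk,
      hF.none_ i j h (Fin.init u) (fun a => h1 _) (fun a => h2 _), sR_x,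
      Equiv.swap_apply_of_ne_of_ne (h1 (Fin.last w)) (h2 (Fin.last w))]
  · have hu' := init_inj hu
    simp only [Colour.opE, map_mul, map_prod, hsk, sR_x, hinit]
    have hj : ∀ a, Fin.init u a ≠ j := fun a => h2 _
    by_cases he : u (Fin.last w) = i
    · have hi : ∀ a, Fin.init u a ≠ i := fun a ha =>
        (Fin.castSucc_lt_last a).ne (hu (ha.trans he.symm))
      have e1 : (fun a => Equiv.swap i j (Fin.init u a)) = Fin.init u :=
        funext fun a => Equiv.swap_apply_of_ne_of_ne (hi a) (hj a)
      have e2 : ∀ a, kk N (Equiv.swap i j (Fin.init u a)) (Equiv.swap i j i)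
          = kk N (Fin.init u a) i :=
        fun a => kk_swap h _ _ (fun e => hi a e.1) (fun e => hj a e.1)
      rw [he, e1, hF.none_ i j h _ hi hj, prod_congr rfl (fun a _ => e2 a), Equiv.swap_apply_left]
      ring
    · have hne : Equiv.swap i j (u (Fin.last w)) = u (Fin.last w) :=
        Equiv.swap_apply_of_ne_of_ne he (h2 _)
      have e2 : ∀ a, kk N (Equiv.swap i j (Fin.init u a)) (Equiv.swap i j (u (Fin.last w)))
          = kk N (Fin.init u a) (u (Fin.last w)) :=
        fun a => kk_swap h _ _ (fun e => h2 _ e.2) (fun e => hj a e.1)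
      rw [prod_congr rfl (fun a _ => e2 a), hne]
      obtain ⟨a, ha⟩ := h1
      induction a using Fin.lastCases with
      | last => exact absurd ha he
      | cast a =>
        linear_combination (xv N (u (Fin.last w))
          * ∏ b, kk N (Fin.init u b) (u (Fin.last w))) * hF.one_ i j h _ hu' ⟨a, ha⟩ hj
  · have hu' := init_inj hu
    simp only [Colour.opE, map_mul, map_prod, hsk, sR_x, hinit]
    obtain ⟨a, b, hab, ha, hb⟩ := h1
    induction a using Fin.lastCases with
    | last => exact absurd hab (not_lt.2 (Fin.le_last b))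
    | cast a =>
    induction b using Fin.lastCases with
    | cast b =>
      have he1 : u (Fin.last w) ≠ i := fun e => (Fin.castSucc_lt_last a).ne (hu (ha.trans e.symm))
      have he2 : u (Fin.last w) ≠ j := fun e => (Fin.castSucc_lt_last b).ne (hu (hb.trans e.symm))
      have hne := Equiv.swap_apply_of_ne_of_ne he1 he2
      have e2 : ∀ c, kk N (Equiv.swap i j (Fin.init u c)) (Equiv.swap i j (u (Fin.last w)))
          = kk N (Fin.init u c) (u (Fin.last w)) :=
        fun c => kk_swap h _ _ (fun e => he2 e.2) (fun e => he1 e.2)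
      rw [prod_congr rfl (fun c _ => e2 c), hne]
      linear_combination (xv N (u (Fin.last w))
        * ∏ c, kk N (Fin.init u c) (u (Fin.last w)))
          * hF.two_ i j h _ hu' ⟨a, b, by simpa using hab, ha, hb⟩
    | last =>
      have hj : ∀ c, Fin.init u c ≠ j := fun c e =>
        (Fin.castSucc_lt_last c).ne (hu (e.trans hb.symm))
      rw [hb, Equiv.swap_apply_right, ← mul_prod_erase univ _ (mem_univ a),
        ← mul_prod_erase univ (fun c => kk N (Equiv.swap i j (Fin.init u c)) i) (mem_univ a)]
      have hrest : ∀ c ∈ univ.erase a,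
          kk N (Equiv.swap i j (Fin.init u c)) i = kk N (Fin.init u c) j := by
        intro c hc
        have hci : Fin.init u c ≠ i := fun e => (mem_erase.1 hc).1 (hu' (e.trans ha.symm))
        have := kk_swap h (Fin.init u c) j (fun e => hci e.1) (fun e => hj c e.1)
        rwa [Equiv.swap_apply_right] at this
      rw [prod_congr rfl hrest]
      have ha' : Fin.init u a = i := ha
      have k1 : kk N (Fin.init u a) j = qv N := by
        rw [ha', kk, if_neg (ne_of_succ h), qq, if_pos (Fin.lt_def.2 (by omega))]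
      have k2 : kk N (Equiv.swap i j (Fin.init u a)) i = 1 := by
        rw [ha', Equiv.swap_apply_left, kk, if_neg (ne_of_succ h).symm, qq,
          if_neg (by rw [Fin.lt_def]; omega)]
      rw [k1, k2]
      linear_combination (qv N * xv N i * ∏ c ∈ univ.erase a, kk N (Fin.init u c) j)
        * hF.one_ i j h _ hu' ⟨a, ha⟩ hj

theorem cons_inj_iff {w : ℕ} (c : Fin N) (t : Fin w → Fin N) :
    Function.Injective (Fin.cons c t : Fin (w + 1) → Fin N) ↔
      (∀ a, t a ≠ c) ∧ Function.Injective t := by
  rw [Fin.cons_injective_iff]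
  simp [Set.mem_range, eq_comm]

theorem swap_cons {w : ℕ} (i j c : Fin N) (t : Fin w → Fin N) :
    (fun a => Equiv.swap i j ((Fin.cons c t : Fin (w + 1) → Fin N) a))
      = Fin.cons (Equiv.swap i j c) (fun a => Equiv.swap i j (t a)) := by
  funext a; induction a using Fin.cases <;> simp

theorem Good.opF {w : ℕ} {F : (Fin (w + 1) → Fin N) → Rg N} (hF : Good F) : Good (opF F) := by
  refine ⟨fun t ht => sum_eq_zero fun c _ => hF.inj _ (fun hc => ht ((cons_inj_iff c t).1 hc).2),
    fun i j h t h1 h2 => ?_, fun i j h t ht h1 h2 => ?_, fun i j h t ht h1 => ?_⟩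
  · by_cases ht : Function.Injective t
    swap
    · have hz : ∀ c, F (Fin.cons c t) = 0 :=
        fun c => hF.inj _ (fun hc => ht ((cons_inj_iff c t).1 hc).2)
      simp [Colour.opF, hz]
    have hij := ne_of_succ h
    simp only [Colour.opF, map_sum]
    rw [← add_sum_erase univ _ (mem_univ i), ← add_sum_erase (univ.erase i) _
      (mem_erase.2 ⟨hij.symm, mem_univ j⟩), ← add_sum_erase univ (fun c => F (Fin.cons c t))
      (mem_univ i), ← add_sum_erase (univ.erase i) (fun c => F (Fin.cons c t))
      (mem_erase.2 ⟨hij.symm, mem_univ j⟩)]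
    have hrest : ∀ c ∈ (univ.erase i).erase j,
        sR i j (F (Fin.cons c t)) = F (Fin.cons c t) := by
      intro c hc
      simp only [mem_erase] at hc
      exact hF.none_ i j h _ (fun a => by induction a using Fin.cases <;> simp [hc.2.1, h1 _])
        (fun a => by induction a using Fin.cases <;> simp [hc.1, h2 _])
    rw [sum_congr rfl hrest]
    have hfix : (fun a => Equiv.swap i j (t a)) = t :=
      funext fun a => Equiv.swap_apply_of_ne_of_ne (h1 a) (h2 a)
    have r1 := hF.one_ i j h (Fin.cons i t) ((cons_inj_iff i t).2 ⟨h1, ht⟩) ⟨0, rfl⟩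
      (fun a => by induction a using Fin.cases <;> simp [hij, h2 _])
    rw [swap_cons, Equiv.swap_apply_left, hfix] at r1
    have r2 := congrArg (sR i j) r1
    simp only [map_mul, map_sub, map_add, map_one, sR_q, sR_x, sR_sR, Equiv.swap_apply_left,
      Equiv.swap_apply_right] at r2
    have key : (xv N j - xv N i) * (sR i j (F (Fin.cons i t)) + sR i j (F (Fin.cons j t)))
        = (xv N j - xv N i) * (F (Fin.cons i t) + F (Fin.cons j t)) := by
      linear_combination r1 + r2
    linear_combination mul_left_cancel₀ (xsub_ne hij) key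
  · have hij := ne_of_succ h
    obtain ⟨a, ha⟩ := h1
    simp only [Colour.opF, map_sum, mul_sum]
    rw [← (Equiv.sum_comp (Equiv.swap i j)
      (fun c => (xv N j - xv N i) * F (Fin.cons c (fun b => Equiv.swap i j (t b))))),
      ← sum_add_distrib]
    apply sum_congr rfl
    intro c _
    by_cases hci : c = i
    · subst hci
      have z1 : F (Fin.cons c t) = 0 := hF.inj _ (fun e => ((cons_inj_iff c t).1 e).1 a ha)
      have z2 : F (Fin.cons (Equiv.swap c j c) (fun b => Equiv.swap c j (t b))) = 0 :=
        hF.inj _ (fun e => ((cons_inj_iff _ _).1 e).1 a (by simp [ha]))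
      rw [Equiv.swap_apply_left] at z2 ⊢
      simp [z1, z2]
    by_cases hcj : c = j
    · subst hcj
      have ht' : Function.Injective (Fin.cons i (fun b => Equiv.swap i c (t b)) :
          Fin (w + 1) → Fin N) :=
        (cons_inj_iff _ _).2 ⟨fun b e => h2 b ((Equiv.swap i c).injective
          (e.trans (Equiv.swap_apply_right i c).symm)), (Equiv.injective _).comp ht⟩
      have r1 := hF.two_ i c h _ ht' ⟨0, a.succ, Fin.succ_pos a, rfl, by simp [ha]⟩
      rw [swap_cons, Equiv.swap_apply_left] at r1
      simp only [Equiv.swap_apply_self] at r1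
      have r2 := congrArg (sR i c) r1
      simp only [map_mul, map_sub, map_add, map_one, sR_q, sR_x, sR_sR, Equiv.swap_apply_left,
        Equiv.swap_apply_right] at r2
      rw [Equiv.swap_apply_right]
      apply mul_left_cancel₀ (mul_ne_zero (qv_ne_zero N) (xsub_ne hij.symm))
      linear_combination -(xv N c - qv N * xv N i) * r2 - (1 - qv N) * xv N c * r1
    rw [Equiv.swap_apply_of_ne_of_ne hci hcj]
    by_cases hc : ∀ b, t b ≠ c
    · have r1 := hF.one_ i j h (Fin.cons c t) ((cons_inj_iff c t).2 ⟨hc, ht⟩)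
        ⟨a.succ, by simp [ha]⟩ (fun b => by induction b using Fin.cases <;> simp [hcj, h2 _])
      rwa [swap_cons, Equiv.swap_apply_of_ne_of_ne hci hcj] at r1
    · push Not at hc
      obtain ⟨b, hb⟩ := hc
      have z1 : F (Fin.cons c t) = 0 := hF.inj _ (fun e => ((cons_inj_iff c t).1 e).1 b hb)
      have z2 : F (Fin.cons c (fun b => Equiv.swap i j (t b))) = 0 :=
        hF.inj _ (fun e => ((cons_inj_iff _ _).1 e).1 b
          (by simp [hb, Equiv.swap_apply_of_ne_of_ne hci hcj]))
      simp [z1, z2]
  · obtain ⟨a, b, hab, ha, hb⟩ := h1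
    simp only [Colour.opF, map_sum, mul_sum]
    rw [← sum_add_distrib]
    apply sum_congr rfl
    intro c _
    by_cases hc : ∀ d, t d ≠ c
    · have hci : c ≠ i := fun e => hc a (by rw [ha, e])
      have hcj : c ≠ j := fun e => hc b (by rw [hb, e])
      have r1 := hF.two_ i j h (Fin.cons c t) ((cons_inj_iff c t).2 ⟨hc, ht⟩)
        ⟨a.succ, b.succ, Fin.succ_lt_succ_iff.2 hab, by simp [ha], by simp [hb]⟩
      rwa [swap_cons, Equiv.swap_apply_of_ne_of_ne hci hcj] at r1
    · push Not at hc
      obtain ⟨d, hd⟩ := hc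
      have z1 : F (Fin.cons c t) = 0 := hF.inj _ (fun e => ((cons_inj_iff c t).1 e).1 d hd)
      have z2 : F (Fin.cons c (fun b => Equiv.swap i j (t b))) = 0 := by
        apply hF.inj
        intro e
        have e' := ((cons_inj_iff _ _).1 e).1
        by_cases hci : c = i
        · subst hci; exact e' b (by simp [hb])
        by_cases hcj : c = j
        · subst hcj; exact e' a (by simp [ha])
        exact e' d (by simp [hd, Equiv.swap_apply_of_ne_of_ne hci hcj])
      simp [z1, z2]

theorem Good.of_empty (a : Rg N) (ha : ∀ i j : Fin N, sR i j a = a) :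
    Good (w := 0) (fun _ => a) :=
  ⟨fun _ ht => absurd (fun x => x.elim0) ht, fun i j _ _ _ _ => ha i j,
    fun _ _ _ _ _ h _ => h.choose.elim0, fun _ _ _ _ _ h => h.choose.elim0⟩

/-- value at the lowest colours, oldest pin lowest -/
noncomputable def base {w : ℕ} (hw : w ≤ N) (F : (Fin w → Fin N) → Rg N) : Rg N :=
  F (Fin.castLE hw)

theorem base_opE {w : ℕ} (hw : w + 1 ≤ N) (F : (Fin w → Fin N) → Rg N) :
    base hw (opE F) = base (by omega) F * xv N ⟨w, by omega⟩ * qv N ^ w := by
  have h1 : Fin.init (Fin.castLE hw) = Fin.castLE (by omega : w ≤ N) := rfl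
  have h2 : Fin.castLE hw (Fin.last w) = ⟨w, by omega⟩ := rfl
  rw [base, base, opE, h1, h2, prod_eq_pow_card (b := qv N) (fun a _ => ?_), card_univ,
    Fintype.card_fin]
  have := a.isLt
  rw [kk, if_neg (fun e => by simp [Fin.ext_iff] at e; omega), qq,
    if_pos (Fin.lt_def.2 (by simp))]

/-- pins `i, 0, …` skipping `i` -/
def cyc {w : ℕ} (hw : w + 1 ≤ N) (i : Fin N) (a : Fin (w + 1)) : Fin N :=
  if (a : ℕ) = 0 then i
  else if (a : ℕ) ≤ i then ⟨(a : ℕ) - 1, by have := a.isLt; omega⟩
  else ⟨a, by have := a.isLt; omega⟩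

theorem cyc_inj {w : ℕ} (hw : w + 1 ≤ N) (i : Fin N) : Function.Injective (cyc hw i) := by
  intro a b h
  have := a.isLt; have := b.isLt
  unfold cyc at h
  split_ifs at h <;> simp [Fin.ext_iff] at h ⊢ <;> omega

/-- one step of moving the oldest pin from colour `i` up to colour `j = i + 1` -/
def Step (w : ℕ) (i j : Fin N) (R R' : Rg N) : Prop :=
  (xv N j - xv N i) * R' = (xv N j - qv N * xv N i) * sR i j R
    - (1 - qv N) * xv N (if (i : ℕ) < w then i else j) * R

/-- `G` is obtained from `P` by moving the oldest of `w + 1` pins up and adding -/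
def DRel (w : ℕ) (P G : Rg N) : Prop :=
  ∃ R : Fin N → Rg N, (∀ i : Fin N, (i : ℕ) = 0 → R i = P) ∧
    (∀ i j : Fin N, (j : ℕ) = i + 1 → Step w i j (R i) (R j)) ∧
    G = ∑ c ∈ univ.filter (fun c : Fin N => w ≤ (c : ℕ)), R c

theorem DRel.add {w : ℕ} {P G P' G' : Rg N} (h : DRel w P G) (h' : DRel w P' G') :
    DRel w (P + P') (G + G') := by
  obtain ⟨R, a1, a2, rfl⟩ := h
  obtain ⟨R', b1, b2, rfl⟩ := h'
  refine ⟨fun c => R c + R' c, fun i hi => by simp [a1 i hi, b1 i hi], fun i j h => ?_,
    sum_add_distrib.symm⟩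
  have p := a2 i j h
  have p' := b2 i j h
  simp only [Step, map_add] at *
  linear_combination p + p'

theorem DRel.zero (w : ℕ) : DRel (N := N) w 0 0 :=
  ⟨fun _ => 0, fun _ _ => rfl, fun i j _ => by simp [Step], by simp⟩

theorem DRel.smul {w : ℕ} {P G : Rg N} (h : DRel w P G) (a : Rg N)
    (ha : ∀ i j : Fin N, sR i j a = a) : DRel w (a * P) (a * G) := by
  obtain ⟨R, a1, a2, rfl⟩ := h
  refine ⟨fun c => a * R c, fun i hi => by simp [a1 i hi], fun i j h => ?_, mul_sum ..⟩
  have p := a2 i j h
  simp only [Step, map_mul, ha] at *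
  linear_combination a * p

theorem base_opF {w : ℕ} (hw : w + 1 ≤ N) {F : (Fin (w + 1) → Fin N) → Rg N} (hF : Good F)
    {G : Rg N} (h : DRel w (base hw F) G) : qv N ^ w * base (by omega) (opF F) = G := by
  obtain ⟨R, h0, hs, rfl⟩ := h
  have key : ∀ m : ℕ, ∀ hm : m < N,
      R ⟨m, hm⟩ = qv N ^ (min m w) * F (cyc hw ⟨m, hm⟩) := by
    intro m
    induction m with
    | zero =>
      intro hm
      rw [h0 _ rfl, base, Nat.zero_min, pow_zero, one_mul]
      congr 1
      funext a
      apply Fin.ext
      simp only [cyc, Fin.val_castLE]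
      split_ifs <;> simp only <;> omega
    | succ m ih =>
      intro hm
      have ih' := ih (by omega)
      set i : Fin N := ⟨m, by omega⟩ with hi
      set j : Fin N := ⟨m + 1, hm⟩ with hj
      have hij : (j : ℕ) = i + 1 := rfl
      have st := hs i j hij
      rw [ih'] at st
      have hsw : (fun a => Equiv.swap i j (cyc hw i a)) = cyc hw j := by
        funext a
        have := a.isLt
        apply Fin.ext
        rw [Equiv.swap_apply_def]
        simp only [cyc, hi, hj]
        split_ifs <;> simp only [Fin.ext_iff] at * <;> omega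
      apply mul_left_cancel₀ (xsub_ne (ne_of_succ hij))
      simp only [Step, map_mul, map_pow, sR_q] at st
      by_cases hmw : m < w
      · have r1 := hF.two_ i j hij (cyc hw i) (cyc_inj hw i)
          ⟨0, ⟨m + 1, by omega⟩, Fin.lt_def.2 (by simp), by simp [cyc],
            by simp [cyc, hi, hj, Fin.ext_iff]⟩
        rw [hsw] at r1
        rw [if_pos (show (i : ℕ) < w from hmw), min_eq_left hmw.le] at st
        rw [min_eq_left (show m + 1 ≤ w by omega), pow_succ]
        linear_combination st + qv N ^ m * r1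
      · have r1 := hF.one_ i j hij (cyc hw i) (cyc_inj hw i) ⟨0, by simp [cyc]⟩ (fun a => by
          have := a.isLt
          simp only [cyc, hi, hj]
          split_ifs <;> simp [Fin.ext_iff] <;> omega)
        rw [hsw] at r1
        rw [if_neg (show ¬ (i : ℕ) < w from hmw), min_eq_right (by omega)] at st
        rw [min_eq_right (show w ≤ m + 1 by omega)]
        linear_combination st + qv N ^ w * r1
  rw [base, opF, mul_sum, sum_filter]
  apply sum_congr rfl
  intro c _
  split_ifs with hc
  · rw [key c c.isLt, min_eq_right hc]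
    congr 2
    funext a
    induction a using Fin.cases with
    | zero => simp [cyc]
    | succ a =>
      have := a.isLt
      simp only [Fin.cons_succ, cyc, Fin.val_succ, Fin.eta]
      rw [if_neg (by omega), if_pos (by omega)]
      exact Fin.ext (by simp)
  · rw [hF.inj _ (fun e => ((cons_inj_iff _ _).1 e).1 ⟨c, by omega⟩ (Fin.ext rfl)), mul_zero]

section graph

variable (e : ℕ → ℕ)

/-- `F` gives, for every test function of the colours of the last `w` of `m` vertices, its
weighted sum over all colourings -/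
def Ext (m w : ℕ) (hw : w ≤ m) (F : (Fin w → Fin N) → Rg N) : Prop :=
  ∀ φ : (Fin w → Fin N) → Rg N,
    ∑ f : Fin m → Fin N, cw e m N f * φ (fun a => f ⟨m - w + a, by have := a.isLt; omega⟩)
      = ∑ t, F t * φ t

theorem Ext.start : Ext (N := N) e 0 0 le_rfl (fun _ => 1) := by
  intro φ
  simp only [Fintype.sum_unique, cw]
  rw [show (fun a : Fin 0 => (default : Fin 0 → Fin N) ⟨0 - 0 + (a : ℕ), by simpa using a.isLt⟩)
    = default from funext fun a => a.elim0]
  simp

theorem Ext.forget {m w : ℕ} {hw : w + 1 ≤ m} {F : (Fin (w + 1) → Fin N) → Rg N}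
    (h : Ext e m (w + 1) hw F) : Ext e m w (by omega) (opF F) := by
  intro φ
  have h1 := h (fun t => φ (Fin.tail t))
  have h2 : ∑ t, F t * φ (Fin.tail t) = ∑ t, opF F t * φ t := by
    rw [← (Fin.consEquiv fun _ => Fin N).sum_comp, Fintype.sum_prod_type, sum_comm]
    simp [opF, sum_mul, Fin.consEquiv]
  rw [← h2, ← h1]
  apply sum_congr rfl
  intro f _
  congr 2
  funext a
  simp only [Fin.tail]
  congr 1
  apply Fin.ext
  simp
  omega

theorem Ext.extend {m w : ℕ} {hw : w ≤ m} (he : e m = w) {F : (Fin w → Fin N) → Rg N}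
    (h : Ext e m w hw F) : Ext e (m + 1) (w + 1) (by omega) (opE F) := by
  intro φ
  have h1 := h (fun t => ∑ c, xv N c * (∏ a, kk N (t a) c) * φ (Fin.snoc t c))
  have h2 : ∑ u, opE F u * φ u
      = ∑ t, F t * ∑ c, xv N c * (∏ a, kk N (t a) c) * φ (Fin.snoc t c) := by
    rw [sum_snoc, sum_comm]
    apply sum_congr rfl
    intro t _
    rw [mul_sum]
    apply sum_congr rfl
    intro c _
    simp only [opE, Fin.init_snoc, Fin.snoc_last]
    ring
  rw [h2, ← h1, sum_snoc, sum_comm]
  apply sum_congr rfl
  intro g _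
  rw [mul_sum]
  apply sum_congr rfl
  intro c _
  have e1 : (fun a : Fin (w + 1) => (Fin.snoc g c : Fin (m + 1) → Fin N)
      ⟨m + 1 - (w + 1) + (a : ℕ), by have := a.isLt; omega⟩)
      = Fin.snoc (fun a : Fin w => g ⟨m - w + (a : ℕ), by have := a.isLt; omega⟩) c := by
    funext a
    induction a using Fin.lastCases with
    | last =>
      rw [Fin.snoc_last, show (⟨m + 1 - (w + 1) + ((Fin.last w : Fin (w + 1)) : ℕ), _⟩ : Fin (m + 1))
        = Fin.last m from Fin.ext (by simp; omega), Fin.snoc_last]
    | cast a =>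
      have := a.isLt
      rw [Fin.snoc_castSucc, show (⟨m + 1 - (w + 1) + ((Fin.castSucc a : Fin (w + 1)) : ℕ), _⟩ :
        Fin (m + 1)) = Fin.castSucc ⟨m - w + (a : ℕ), by omega⟩ from Fin.ext (by simp),
        Fin.snoc_castSucc]
  rw [e1, cw_snoc]
  have e2 : (∏ a : Fin m, if m ≤ a + e m then kk N (g a) c else 1)
      = ∏ a : Fin w, kk N (g ⟨m - w + (a : ℕ), by have := a.isLt; omega⟩) c := by
    rw [← prod_filter]
    refine prod_bij' (fun (a : Fin m) ha => (⟨(a : ℕ) - (m - w), by
      have := (mem_filter.1 ha).2; have := a.isLt; omega⟩ : Fin w))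
      (fun (a : Fin w) _ => (⟨m - w + (a : ℕ), by have := a.isLt; omega⟩ : Fin m))
      ?_ ?_ ?_ ?_ ?_
    · intros; exact mem_univ _
    · intro a _; simp; omega
    · intro a ha; have := (mem_filter.1 ha).2; exact Fin.ext (by simp; omega)
    · intro a _; exact Fin.ext (by simp)
    · intro a ha
      have := (mem_filter.1 ha).2
      exact congrArg (fun z => kk N (g z) c) (Fin.ext (by simp; omega))
  rw [e2]
  ring

theorem Ext.total {m : ℕ} {hw : 0 ≤ m} {F : (Fin 0 → Fin N) → Rg N} (h : Ext e m 0 hw F) :
    S0 e m N = F Fin.elim0 := by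
  have h1 := h (fun _ => 1)
  simp only [mul_one, Fintype.sum_unique] at h1
  rw [S0, h1]
  exact congrArg F (funext fun a => a.elim0)

end graph

end Vale.Agent.P066.Colour
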