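import Mathlib

/-!
P066: sparse polynomials with packed exponents, evaluated in a commutative ring, for kernel checks.
A code `n` has base-32 digits giving the exponents of a list of values and leaves the rest as the
exponent of one further value.
-/

namespace Vale.Agent.P066.Sparse

/-- sparse polynomial: increasing codes with coefficients -/
abbrev SP := List (ℕ × ℤ)

section defs

/-- merge with cancellation -/
def addF : ℕ → SP → SP → SP
  | 0, a, b => a ++ b
  | _ + 1, [], b => b
  | _ + 1, a, [] => a
  | f + 1, (m, c) :: a, (n, d) :: b =>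
    if m < n then (m, c) :: addF f a ((n, d) :: b)
    else if n < m then (n, d) :: addF f ((m, c) :: a) b
    else if c + d = 0 then addF f a b else (m, c + d) :: addF f a b

/-- sum -/
def add (a b : SP) : SP := addF (a.length + b.length + 1) a b

/-- negation -/
def neg (a : SP) : SP := a.map fun t => (t.1, -t.2)

/-- difference -/
def sub (a b : SP) : SP := add a (neg b)

/-- sum of a list -/
def sumL : List SP → SP
  | [] => []
  | a :: l => add a (sumL l)

/-- no carry in the first `k` digits -/
def okm : ℕ → ℕ → ℕ → Bool
  | 0, _, _ => true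
  | k + 1, a, b => decide (a % 32 + b % 32 < 32) && okm k (a / 32) (b / 32)

/-- multiply by a term -/
def smulT (k : ℕ) (t : ℕ × ℤ) (p : SP) : Option SP :=
  if p.all (fun s => okm k t.1 s.1) then some (p.map fun s => (t.1 + s.1, t.2 * s.2)) else none

/-- product -/
def mul (k : ℕ) : SP → SP → Option SP
  | [], _ => some []
  | t :: a, b =>
    match smulT k t b, mul k a b with
    | some x, some y => some (add x y)
    | _, _ => none

/-- exchange the digits `i` and `i + 1` -/
def swapD : ℕ → ℕ → ℕ
  | 0, n => n / 32 % 32 + 32 * (n % 32 + 32 * (n / 32 / 32))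
  | i + 1, n => n % 32 + 32 * swapD i (n / 32)

/-- exchange two adjacent entries -/
def swL {α : Type*} : ℕ → List α → List α
  | 0, a :: b :: l => b :: a :: l
  | i + 1, a :: l => a :: swL i l
  | _, l => l

/-- exchange two adjacent variables -/
def swapP (i : ℕ) (p : SP) : SP := sumL (p.map fun t => [(swapD i t.1, t.2)])

end defs

variable {R : Type*} [CommRing R] (q : R)

/-- value of a code -/
def evm : List R → ℕ → R
  | [], n => q ^ n
  | v :: vs, n => v ^ (n % 32) * evm vs (n / 32)

/-- value of a polynomial -/
def ev (L : List R) (p : SP) : R := (p.map fun t => (t.2 : R) * evm q L t.1).sum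

variable {q} (L : List R)

@[simp] theorem ev_nil : ev q L [] = 0 := rfl

@[simp] theorem ev_cons (t : ℕ × ℤ) (p : SP) :
    ev q L (t :: p) = (t.2 : R) * evm q L t.1 + ev q L p := by simp [ev]

theorem ev_append (a b : SP) : ev q L (a ++ b) = ev q L a + ev q L b := by simp [ev]

theorem ev_addF : ∀ f a b, ev q L (addF f a b) = ev q L a + ev q L b
  | 0, a, b => ev_append L a b
  | _ + 1, [], b => by simp [addF]
  | _ + 1, (_, _) :: _, [] => by simp [addF]
  | f + 1, (m, c) :: a, (n, d) :: b => by
    simp only [addF]
    split_ifs with h1 h2 h3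
    · simp only [ev_cons, ev_addF f]; ring
    · simp only [ev_cons, ev_addF f]; ring
    · obtain rfl : m = n := by omega
      have : ((c : R) + d) = 0 := by rw [← Int.cast_add, h3, Int.cast_zero]
      simp only [ev_cons, ev_addF f]
      linear_combination (-evm q L m) * this
    · obtain rfl : m = n := by omega
      simp only [ev_cons, ev_addF f, Int.cast_add]; ring

theorem ev_add (a b : SP) : ev q L (add a b) = ev q L a + ev q L b := ev_addF L _ a b

theorem ev_neg (a : SP) : ev q L (neg a) = -ev q L a := by
  induction a with
  | nil => simp [neg]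
  | cons t a ih =>
    simp only [neg, List.map_cons, ev_cons] at *
    rw [ih]; simp; ring

theorem ev_sub (a b : SP) : ev q L (sub a b) = ev q L a - ev q L b := by
  rw [sub, ev_add, ev_neg, sub_eq_add_neg]

theorem ev_sumL : ∀ l : List SP, ev q L (sumL l) = (l.map (ev q L)).sum
  | [] => rfl
  | a :: l => by simp [sumL, ev_add, ev_sumL l]

theorem evm_add : ∀ (L : List R) (a b : ℕ), okm L.length a b = true →
    evm q L (a + b) = evm q L a * evm q L b
  | [], a, b, _ => by simp [evm, pow_add]
  | v :: vs, a, b, h => by
    simp only [List.length_cons, okm, Bool.and_eq_true, decide_eq_true_eq] at h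
    simp only [evm, show (a + b) % 32 = a % 32 + b % 32 by omega,
      show (a + b) / 32 = a / 32 + b / 32 by omega, pow_add, evm_add vs _ _ h.2]
    ring

theorem ev_smulT {k : ℕ} (hk : L.length = k) {t : ℕ × ℤ} {p r : SP}
    (h : smulT k t p = some r) : ev q L r = (t.2 : R) * evm q L t.1 * ev q L p := by
  simp only [smulT] at h
  split_ifs at h with h1
  cases h
  induction p with
  | nil => simp
  | cons s p ih =>
    simp only [List.all_cons, Bool.and_eq_true] at h1
    simp only [List.map_cons, ev_cons, ih h1.2, evm_add L _ _ (hk ▸ h1.1), Int.cast_mul]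
    ring

theorem ev_mul {k : ℕ} (hk : L.length = k) : ∀ {a b r : SP}, mul k a b = some r →
    ev q L r = ev q L a * ev q L b
  | [], b, r, h => by simp only [mul, Option.some.injEq] at h; subst h; simp
  | t :: a, b, r, h => by
    simp only [mul] at h
    split at h
    · rename_i x y hx hy
      cases h
      rw [ev_add, ev_smulT L hk hx, ev_mul hk hy, ev_cons]
      ring
    · simp at h

theorem evm_swap : ∀ (i : ℕ) (L : List R), i + 1 < L.length → ∀ n,
    evm q (swL i L) n = evm q L (swapD i n)
  | 0, a :: b :: l, _, n => by
    simp only [swL, swapD, evm]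
    rw [show (n / 32 % 32 + 32 * (n % 32 + 32 * (n / 32 / 32))) % 32 = n / 32 % 32 by omega,
      show (n / 32 % 32 + 32 * (n % 32 + 32 * (n / 32 / 32))) / 32
        = n % 32 + 32 * (n / 32 / 32) by omega,
      show (n % 32 + 32 * (n / 32 / 32)) % 32 = n % 32 by omega,
      show (n % 32 + 32 * (n / 32 / 32)) / 32 = n / 32 / 32 by omega]
    ring
  | i + 1, a :: l, h, n => by
    simp only [swL, swapD, evm]
    rw [evm_swap i l (by simpa using h), show (n % 32 + 32 * swapD i (n / 32)) % 32 = n % 32 by
      omega, show (n % 32 + 32 * swapD i (n / 32)) / 32 = swapD i (n / 32) by omega]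
  | 0, [], h, _ => by simp at h
  | 0, [_], h, _ => by simp at h
  | _ + 1, [], h, _ => by simp at h

theorem map_evm {S : Type*} [CommRing S] (f : R →+* S) : ∀ (L : List R) (n : ℕ),
    f (evm q L n) = evm (f q) (L.map f) n
  | [], n => by simp [evm]
  | v :: vs, n => by simp [evm, map_evm f vs]

theorem ev_swapP {f : R →+* R} (hq : f q = q) {i : ℕ} (hi : i + 1 < L.length)
    (hL : L.map f = swL i L) (p : SP) : ev q L (swapP i p) = f (ev q L p) := by
  rw [swapP, ev_sumL, List.map_map]
  induction p with
  | nil => simp
  | cons t p ih =>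
    simp only [List.map_cons, List.sum_cons, Function.comp_apply, ev_cons, ev_nil, add_zero,
      map_add, map_mul, map_intCast, map_evm f, hq, hL, evm_swap i L hi] at *
    rw [ih]

theorem swL_getElem? {α : Type*} : ∀ (i : ℕ) (l : List α), i + 1 < l.length → ∀ k,
    (swL i l)[k]? = l[if k = i then i + 1 else if k = i + 1 then i else k]?
  | 0, a :: b :: l, _, k => by
    rcases k with _ | _ | k <;> simp [swL]
  | i + 1, a :: l, h, k => by
    rcases k with _ | k
    · simp [swL]
    · simp only [swL, List.getElem?_cons_succ, swL_getElem? i l (by simpa using h) k]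
      by_cases h1 : k = i
      · simp [h1]
      by_cases h2 : k = i + 1
      · simp [h2]
      · simp [h1, h2]
  | 0, [], h, _ => by simp at h
  | 0, [_], h, _ => by simp at h
  | _ + 1, [], h, _ => by simp at h

end Vale.Agent.P066.Sparse
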