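import Mathlib
import Vale.Agent.P066.Colour
import Vale.Agent.P066.Sparse

/-!
P066: a checkable certificate for positivity in exactly `N` colours, and the expansion it implies for
every natural unit interval graph.
-/

namespace Vale.Agent.P066.Cert

open Finset Colour Sparse

/-- exponent code of one variable -/
def unit (i : ℕ) : ℕ := 32 ^ i

/-- elementary symmetric polynomial of the listed variables -/
def eP : ℕ → List ℕ → SP
  | 0, _ => [(0, 1)]
  | _ + 1, [] => []
  | k + 1, v :: vs => add (eP (k + 1) vs) ((eP k vs).map fun t => (unit v + t.1, t.2))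

/-- product of a list, with failure -/
def prodL (n : ℕ) : List SP → Option SP
  | [] => some [(0, 1)]
  | a :: l => (prodL n l).bind fun r => mul n a r

/-- expansion of a scalar code in the variables -/
def expMon (N m : ℕ) : Option SP :=
  (prodL N ((List.range N).flatMap fun i =>
    List.replicate (m / 32 ^ i % 32) (eP (i + 1) (List.range N)))).map
    fun p => p.map fun t => (t.1 + 32 ^ N * (m / 32 ^ N), t.2)

/-- expansion of a scalar in the variables -/
def expP (N : ℕ) : SP → Option SP
  | [] => some []
  | t :: p =>
    match expMon N t.1, expP N p with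
    | some x, some y => some (add (x.map fun s => (s.1, t.2 * s.2)) y)
    | _, _ => none

/-- the raw basis vector of an index list -/
def bP (N : ℕ) (k : List ℕ) : Option SP :=
  prodL N ((List.range k.length).map fun i =>
    (eP (k.getD i 1 - 1) (List.range' (i + 1) (N - (i + 1)))).map fun t => (unit i + t.1, t.2))

/-- combination: index and scalar -/
abbrev CV := List (ℕ × SP)

/-- scale a combination -/
def scaleCV (N : ℕ) (p : SP) : CV → Option CV
  | [] => some []
  | t :: v =>
    match mul N p t.2, scaleCV N p v with
    | some x, some y => some ((t.1, x) :: y)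
    | _, _ => none

/-- substitution -/
def subst (N : ℕ) (M : List CV) : CV → Option CV
  | [] => some []
  | t :: v =>
    match scaleCV N t.2 (M.getD t.1 []), subst N M v with
    | some x, some y => some (x ++ y)
    | _, _ => none

/-- dense form -/
def vecCV (size : ℕ) (v : CV) : List SP :=
  (List.range size).map fun k => sumL ((v.filter fun t => t.1 == k).map Prod.snd)

/-- equality of two combinations as dense vectors -/
def eqv (size : ℕ) : Option CV → Option CV → Bool
  | some a, some b =>
    a.all (fun t => decide (t.1 < size)) && b.all (fun t => decide (t.1 < size))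
      && decide (vecCV size a = vecCV size b)
  | _, _ => false

/-- geometric sum used by `quot` -/
def geo (i j : ℕ) : ℕ → ℕ → ℤ → SP
  | _, 0, _ => []
  | m, d + 1, c => add [(m - unit j, c)] (geo i j (m + unit i - unit j) d c)

/-- quotient of an antisymmetric polynomial by `x j - x i` -/
def quot (i j : ℕ) (A : SP) : SP :=
  sumL (A.map fun t =>
    if t.1 / 32 ^ i % 32 < t.1 / 32 ^ j % 32 then
      geo i j t.1 (t.1 / 32 ^ j % 32 - t.1 / 32 ^ i % 32) t.2
    else [])

/-- the next polynomial of a chain; only its check matters -/
def nextR (N w i : ℕ) (R : SP) : Option SP :=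
  let s := swapP i R
  let qc := 32 ^ N
  if i < w then
    let d := (quot i (i + 1) (sub s R)).map fun t => (t.1 + unit i, t.2)
    some (add s (sub d (d.map fun t => (t.1 + qc, t.2))))
  else
    let d := sub (s.map fun t => (t.1 + unit i, t.2)) (R.map fun t => (t.1 + unit (i + 1), t.2))
    some (add s (quot i (i + 1) (sub d (d.map fun t => (t.1 + qc, t.2)))))

/-- check of one step -/
def chkStep (N w i : ℕ) (R R' : SP) : Bool :=
  let s := swapP i R
  match mul N (sub [(unit (i + 1), 1)] [(unit i, 1)]) R',
    mul N (sub [(unit (i + 1), 1)] [(32 ^ N + unit i, 1)]) s,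
    mul N (sub [(unit (if i < w then i else i + 1), 1)]
      [(32 ^ N + unit (if i < w then i else i + 1), 1)]) R with
  | some l, some a, some b => decide (l = sub a b)
  | _, _, _ => false

/-- the chain starting from `P` -/
def chain (N w : ℕ) (P : SP) : ℕ → Option SP
  | 0 => some P
  | i + 1 => (chain N w P i).bind (nextR N w i)

/-- value of a combination of basis vectors in the variables -/
def expCV (N : ℕ) (B : List SP) : CV → Option SP
  | [] => some []
  | t :: v =>
    match expP N t.2, expCV N B v with
    | some c, some y => (mul N c (B.getD t.1 [])).map fun x => add x y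
    | _, _ => none

/-- check that dropping the basis vector `P` gives the combination `rhs` -/
def chkTab (N w : ℕ) (B : List SP) (P : SP) (rhs : CV) : Bool :=
  match (List.range N).mapM (chain N w P), expCV N B rhs with
  | some R, some G =>
    (List.range (N - 1)).all (fun i => chkStep N w i (R.getD i []) (R.getD (i + 1) []))
      && decide (R.getD 0 [] = P)
      && decide (sumL ((List.range' w (N - w)).map fun c => R.getD c []) = G)
  | _, _ => false

/-- one window size: basis, its drop table, its extension table, generators and their transfers -/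
structure Lvl where
  ks : List (List ℕ)
  tab : List CV
  ext : List ℕ
  gens : List (ℕ × CV)
  drop : List CV
  up : List CV

/-- weight of a scalar code -/
def wE : ℕ → ℕ → ℕ → ℕ
  | 0, _, _ => 0
  | k + 1, i, m => i * (m % 32) + wE k (i + 1) (m / 32)

/-- a combination of generators with nonnegative coefficients, homogeneous of degree `d` -/
def posCV (N d : ℕ) (gens : List (ℕ × CV)) (v : CV) : Bool :=
  v.all fun t => decide (t.1 < gens.length) && t.2.all fun s =>
    decide (0 ≤ s.2) && decide ((gens.getD t.1 (0, [])).1 + wE N 1 s.1 = d)

/-- empty window size -/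
def Lvl.empty : Lvl := ⟨[], [], [], [], [], []⟩

/-- a certificate: one entry for each window size `0, …, N` -/
abbrev CertData := List Lvl

/-- entry of a window size -/
def lvl (C : CertData) (r : ℕ) : Lvl := C.getD r Lvl.empty

/-- basis of a window size -/
def basis (N : ℕ) (C : CertData) (r : ℕ) : List SP :=
  (lvl C r).ks.map fun k => (bP N k).getD []

/-- extension table as combinations -/
def extM (C : CertData) (r : ℕ) : List CV := (lvl C r).ext.map fun i => [(i, [(0, 1)])]

/-- check of one entry of the drop table of window size `w + 1` -/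
def chkTabAt (N : ℕ) (C : CertData) (w k : ℕ) : Bool :=
  let B := basis N C w
  chkTab N w B ((basis N C (w + 1)).getD k []) ((lvl C (w + 1)).tab.getD k [])
    && ((lvl C (w + 1)).tab.getD k []).all fun t => decide (t.1 < B.length)

/-- check of the drop table of window size `w + 1` -/
def chkTabs (N : ℕ) (C : CertData) (w : ℕ) : Bool :=
  decide ((lvl C (w + 1)).tab.length = (lvl C (w + 1)).ks.length)
    && (List.range (lvl C (w + 1)).ks.length).all (chkTabAt N C w)

theorem chkTabs_of_list {N : ℕ} {C : CertData} {w : ℕ} (parts : List (List ℕ))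
    (hlen : (lvl C (w + 1)).tab.length = (lvl C (w + 1)).ks.length)
    (hcover : parts.flatten = List.range (lvl C (w + 1)).ks.length)
    (h : ∀ l ∈ parts, l.all (chkTabAt N C w) = true) : chkTabs N C w = true := by
  rw [chkTabs, Bool.and_eq_true, decide_eq_true_eq, ← hcover, List.all_eq_true]
  refine ⟨hlen, fun g hg => ?_⟩
  obtain ⟨l, hl, hgl⟩ := List.mem_flatten.1 hg
  exact List.all_eq_true.1 (h l hl) g hgl

/-- check of the extension table of window size `w` -/
def chkExt (N : ℕ) (C : CertData) (w : ℕ) : Bool :=
  let B := basis N C w
  let P := basis N C (w + 1)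
  decide ((lvl C w).ext.length = B.length) && (List.range B.length).all fun k =>
    decide ((lvl C w).ext.getD k 0 < P.length)
      && decide (mul N [(unit w, 1)] (B.getD k []) = some (P.getD ((lvl C w).ext.getD k 0) []))

/-- check of the transfers of one generator of window size `w` -/
def chkOp (N : ℕ) (C : CertData) (w g : ℕ) : Bool :=
    let G := (lvl C w).gens.getD g (0, [])
    G.2.all (fun t => decide (t.1 < (lvl C w).ks.length))
    && (decide (w = 0) ||
      (posCV N G.1 (lvl C (w - 1)).gens ((lvl C w).drop.getD g [])
        && eqv (lvl C (w - 1)).ks.length (subst N (lvl C w).tab G.2)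
          (subst N ((lvl C (w - 1)).gens.map Prod.snd) ((lvl C w).drop.getD g []))))
    && (if w + 1 < N then
      posCV N (G.1 + 1) (lvl C (w + 1)).gens ((lvl C w).up.getD g [])
        && eqv (lvl C (w + 1)).ks.length (subst N (extM C w) G.2)
          (subst N ((lvl C (w + 1)).gens.map Prod.snd) ((lvl C w).up.getD g []))
    else
      posCV N (G.1 + 1) (lvl C w).gens ((lvl C w).up.getD g [])
        && eqv (lvl C w).ks.length
          ((subst N (extM C w) G.2).bind (subst N (lvl C (w + 1)).tab))
          (subst N ((lvl C w).gens.map Prod.snd) ((lvl C w).up.getD g [])))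

/-- check of the transfers of all generators of window size `w` -/
def chkOps (N : ℕ) (C : CertData) (w : ℕ) : Bool :=
  (List.range (lvl C w).gens.length).all (chkOp N C w)

theorem chkOps_of_list {N : ℕ} {C : CertData} {w : ℕ} (parts : List (List ℕ))
    (hcover : parts.flatten = List.range (lvl C w).gens.length)
    (h : ∀ l ∈ parts, l.all (chkOp N C w) = true) : chkOps N C w = true := by
  rw [chkOps, ← hcover, List.all_eq_true]
  intro g hg
  obtain ⟨l, hl, hgl⟩ := List.mem_flatten.1 hg
  exact List.all_eq_true.1 (h l hl) g hgl

/-- check of the start -/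
def chkStart (C : CertData) : Bool :=
  decide ((lvl C 0).ks = [[]]) && decide ((lvl C 0).gens = [(0, [(0, [(0, 1)])])])

section sound

variable {N : ℕ}

/-- values of the scalar codes -/
noncomputable def sev (p : SP) : Rg N :=
  ev (qv N) (List.ofFn fun i : Fin N => MvPolynomial.esymm (Fin N) (Polynomial ℤ) (i + 1)) p

/-- values of the variable codes -/
noncomputable def xev (p : SP) : Rg N := ev (qv N) (List.ofFn (xv N)) p

theorem evm_zero {R : Type*} [CommRing R] (q : R) : ∀ L : List R, evm q L 0 = 1
  | [] => by simp [evm]
  | v :: vs => by simp [evm, evm_zero q vs]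

theorem evm_unit {R : Type*} [CommRing R] (q : R) : ∀ (L : List R) (i : ℕ), i ≤ L.length →
    evm q L (32 ^ i) = (L ++ [q]).getD i 0
  | [], i, h => by simp at h; subst h; simp [evm]
  | v :: vs, 0, _ => by simp [evm, evm_zero]
  | v :: vs, i + 1, h => by
    simp only [evm, pow_succ', show 32 * 32 ^ i % 32 = 0 by omega,
      show 32 * 32 ^ i / 32 = 32 ^ i by omega, pow_zero, one_mul,
      evm_unit q vs i (by simpa using h), List.cons_append, List.getD_cons_succ]

theorem evm_unit_add {R : Type*} [CommRing R] (q : R) (L : List R) (m : ℕ) :
    evm q L (m + 32 ^ L.length) = q * evm q L m := by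
  induction L generalizing m with
  | nil => simp [evm, pow_succ]; ring
  | cons v vs ih =>
    simp only [evm, List.length_cons, pow_succ', show (m + 32 * 32 ^ vs.length) % 32 = m % 32 by
      omega, show (m + 32 * 32 ^ vs.length) / 32 = m / 32 + 32 ^ vs.length by omega, ih]
    ring

theorem evm_shift {R : Type*} [CommRing R] (q : R) (L : List R) (a : ℕ) : ∀ m,
    evm q L (m + 32 ^ L.length * a) = q ^ a * evm q L m := by
  induction a with
  | zero => simp
  | succ a ih =>
    intro m
    rw [Nat.mul_succ, ← add_assoc, evm_unit_add, ih, pow_succ]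
    ring

theorem xev_unit (i : ℕ) (hi : i < N) : xev (N := N) [(unit i, 1)] = xv N ⟨i, hi⟩ := by
  simp [xev, unit, evm_unit, hi.le, List.getD_eq_getElem?_getD, List.getElem?_append_left, hi]

theorem xev_q_unit (i : ℕ) (hi : i < N) :
    xev (N := N) [(32 ^ N + unit i, 1)] = qv N * xv N ⟨i, hi⟩ := by
  have h := evm_unit_add (qv N) (List.ofFn (xv N)) (unit i)
  rw [List.length_ofFn] at h
  rw [← xev_unit i hi]
  simp [xev, add_comm (32 ^ N) (unit i), h]

theorem sR_list (i : ℕ) (hi : i + 1 < N) :
    (List.ofFn (xv N)).map (sR ⟨i, by omega⟩ ⟨i + 1, hi⟩) = swL i (List.ofFn (xv N)) := by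
  apply List.ext_getElem?
  intro k
  rw [swL_getElem? i _ (by simpa using hi), List.getElem?_map]
  by_cases hk : k < N
  · rw [List.getElem?_eq_getElem (by simpa using hk), List.getElem_ofFn,
      List.getElem?_eq_getElem (show (if k = i then i + 1 else if k = i + 1 then i else k)
        < (List.ofFn (xv N)).length by rw [List.length_ofFn]; split_ifs <;> omega),
      List.getElem_ofFn, Option.map_some, sR_x]
    congr 2
    simp only [Equiv.swap_apply_def, Fin.ext_iff]
    split_ifs <;> simp_all
  · rw [List.getElem?_eq_none (by simpa using hk), List.getElem?_eq_none]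
    · rfl
    · rw [List.length_ofFn]; split_ifs <;> omega

theorem xev_swapP (i : ℕ) (hi : i + 1 < N) (p : SP) :
    xev (N := N) (swapP i p) = sR ⟨i, by omega⟩ ⟨i + 1, hi⟩ (xev p) :=
  ev_swapP _ (sR_q _ _) (by simpa using hi) (sR_list i hi) p

theorem chkStep_sound {w i : ℕ} {R R' : SP} (hi : i + 1 < N)
    (h : chkStep N w i R R' = true) :
    Step w (⟨i, by omega⟩ : Fin N) ⟨i + 1, hi⟩ (xev R) (xev R') := by
  simp only [chkStep] at h
  split at h
  · rename_i l a b h1 h2 h3
    have hl := List.length_ofFn (f := xv N)
    have e1 := ev_mul (q := qv N) _ hl h1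
    have e2 := ev_mul (q := qv N) _ hl h2
    have e3 := ev_mul (q := qv N) _ hl h3
    have e4 : xev (N := N) l = xev a - xev b := by
      rw [of_decide_eq_true h]; exact ev_sub _ a b
    simp only [ev_sub] at e1 e2 e3
    change xev l = (xev _ - xev _) * xev R' at e1
    change xev a = (xev _ - xev _) * xev _ at e2
    change xev b = (xev _ - xev _) * xev R at e3
    rw [xev_unit i (by omega), xev_unit (i + 1) hi] at e1
    rw [xev_q_unit i (by omega), xev_unit (i + 1) hi, xev_swapP i hi] at e2
    unfold Step
    by_cases hw : i < w
    · simp only [if_pos hw] at e3 ⊢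
      rw [xev_q_unit i (by omega), xev_unit i (by omega)] at e3
      linear_combination e4 - e1 + e2 - e3
    · simp only [if_neg hw] at e3 ⊢
      rw [xev_q_unit (i + 1) hi, xev_unit (i + 1) hi] at e3
      linear_combination e4 - e1 + e2 - e3
  · simp at h

theorem ev_map_unit {R : Type*} [CommRing R] (q : R) (L : List R) (v : ℕ) (p : SP)
    (h : ∀ t ∈ p, okm L.length (unit v) t.1 = true) :
    ev q L (p.map fun t => (unit v + t.1, t.2)) = evm q L (unit v) * ev q L p := by
  induction p with
  | nil => simp
  | cons t p ih =>
    simp only [List.map_cons, ev_cons, evm_add L _ _ (h t (by simp)),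
      ih (fun s hs => h s (by simp [hs]))]
    ring

/-- check that the elementary expansions are carry free -/
def chkE (N : ℕ) : Bool :=
  (List.range N).all fun i => (List.range N).all fun k =>
    (eP k (List.range' (i + 1) (N - (i + 1)))).all fun t => okm N (unit i) t.1

theorem eP_sound (hE : chkE N = true) : ∀ (d k : ℕ), d ≤ N → k ≤ N →
    xev (N := N) (eP k (List.range' (N - d) d))
      = (((List.ofFn (xv N)).drop (N - d) : List (Rg N)) : Multiset (Rg N)).esymm k
  | d, 0, _, _ => by simp [eP, xev, evm_zero, Multiset.esymm]
  | 0, k + 1, _, _ => by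
    simp [eP, xev, Multiset.esymm]
  | d + 1, k + 1, hd, hk => by
    have hv : N - (d + 1) < N := by omega
    rw [List.range'_succ, eP, show N - (d + 1) + 1 = N - d by omega, xev, ev_add,
      ev_map_unit _ _ _ _ (by
        intro t ht
        rw [List.length_ofFn]
        simp only [chkE, List.all_eq_true, List.mem_range] at hE
        refine hE _ hv k (by omega) t ?_
        rwa [show N - (d + 1) + 1 = N - d by omega, show N - (N - d) = d by omega])]
    change xev _ + _ * xev _ = _
    rw [eP_sound hE d (k + 1) (by omega) hk, eP_sound hE d k (by omega) (by omega),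
      List.drop_eq_getElem_cons (show N - (d + 1) < (List.ofFn (xv N)).length by simpa using hv),
      show N - (d + 1) + 1 = N - d by omega, ← Multiset.cons_coe]
    have := xev_unit (N - (d + 1)) hv
    simp only [xev, ev_cons, ev_nil, Int.cast_one, one_mul, add_zero] at this
    rw [this]
    simp only [Multiset.esymm, Multiset.powersetCard_cons, Multiset.map_add, Multiset.sum_add,
      Multiset.map_map, Function.comp_def, Multiset.prod_cons, Multiset.sum_map_mul_left,
      List.getElem_ofFn]

theorem eP_full (hE : chkE N = true) (k : ℕ) (hk : k ≤ N) :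
    xev (N := N) (eP k (List.range N)) = MvPolynomial.esymm (Fin N) (Polynomial ℤ) k := by
  have := eP_sound hE N k le_rfl hk
  rw [Nat.sub_self, List.drop_zero] at this
  rw [List.range_eq_range', this, MvPolynomial.esymm_eq_multiset_esymm, Fin.univ_val_map]

theorem evm_digits {R : Type*} [CommRing R] (q : R) : ∀ (L : List R) (n : ℕ),
    evm q L n = q ^ (n / 32 ^ L.length)
      * ((List.range L.length).map fun i => L.getD i 0 ^ (n / 32 ^ i % 32)).prod
  | [], n => by simp [evm]
  | v :: vs, n => by
    rw [evm, evm_digits q vs, List.length_cons, List.range_succ_eq_map, List.map_cons,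
      List.map_map, List.prod_cons]
    simp only [Function.comp_def, List.getD_cons_succ, List.getD_cons_zero, pow_succ',
      Nat.div_div_eq_div_mul, pow_zero, Nat.div_one]
    ring

theorem prodL_sound : ∀ {l : List SP} {r : SP}, prodL N l = some r →
    xev (N := N) r = (l.map (xev (N := N))).prod
  | [], r, h => by
    simp only [prodL, Option.some.injEq] at h; subst h
    simp [xev, evm_zero]
  | a :: l, r, h => by
    simp only [prodL, Option.bind_eq_some_iff] at h
    obtain ⟨y, h1, h2⟩ := h
    rw [List.map_cons, List.prod_cons, ← prodL_sound h1]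
    exact ev_mul _ List.length_ofFn h2

theorem ev_shift (p : SP) (a : ℕ) :
    xev (N := N) (p.map fun t => (t.1 + 32 ^ N * a, t.2)) = qv N ^ a * xev p := by
  induction p with
  | nil => simp [xev]
  | cons t p ih =>
    have h := evm_shift (qv N) (List.ofFn (xv N)) a t.1
    rw [List.length_ofFn] at h
    simp only [xev, List.map_cons, ev_cons, h] at *
    rw [ih]; ring

theorem ev_scale (p : SP) (c : ℤ) :
    xev (N := N) (p.map fun s => (s.1, c * s.2)) = (c : Rg N) * xev p := by
  induction p with
  | nil => simp [xev]
  | cons t p ih =>
    simp only [xev, List.map_cons, ev_cons, Int.cast_mul] at *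
    rw [ih]; ring

theorem expMon_sound (hE : chkE N = true) {m : ℕ} {x : SP} (h : expMon N m = some x) :
    xev (N := N) x = sev (N := N) [(m, 1)] := by
  simp only [expMon, Option.map_eq_some_iff] at h
  obtain ⟨p, hp, rfl⟩ := h
  rw [ev_shift, prodL_sound hp, sev, ev_cons, ev_nil, add_zero, Int.cast_one, one_mul,
    evm_digits, List.length_ofFn]
  congr 1
  rw [List.flatMap, List.map_flatten, List.prod_flatten, List.map_map, List.map_map]
  congr 1
  apply List.map_congr_left
  intro i hi
  have hi' : i < N := List.mem_range.1 hi
  simp only [Function.comp_apply, List.map_replicate, List.prod_replicate,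
    List.getD_eq_getElem?_getD, List.getElem?_eq_getElem, List.length_ofFn, hi',
    List.getElem_ofFn, Option.getD_some]
  rw [eP_full hE (i + 1) (by omega)]

theorem expP_sound (hE : chkE N = true) : ∀ {p x : SP}, expP N p = some x →
    xev (N := N) x = sev (N := N) p
  | [], x, h => by simp only [expP, Option.some.injEq] at h; subst h; exact (ev_nil _).trans (ev_nil _).symm
  | t :: p, x, h => by
    simp only [expP] at h
    split at h
    · rename_i a b ha hb
      cases h
      rw [xev, ev_add]
      change xev _ + xev _ = _
      rw [ev_scale, expMon_sound hE ha, expP_sound hE hb]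
      simp [sev]
    · simp at h

theorem sev_sym (i j : Fin N) (p : SP) : sR i j (sev p) = sev p := by
  induction p with
  | nil => simp [sev]
  | cons t p ih =>
    simp only [sev, ev_cons, map_add, map_mul, map_intCast] at *
    rw [ih, map_evm, sR_q, List.map_ofFn]
    rw [show (sR i j ∘ fun k : Fin N => MvPolynomial.esymm (Fin N) (Polynomial ℤ) ((k : ℕ) + 1))
      = fun k : Fin N => MvPolynomial.esymm (Fin N) (Polynomial ℤ) ((k : ℕ) + 1) from
        funext fun k => by simp [sR, MvPolynomial.rename_esymm]]

/-- value of a combination -/
noncomputable def cval (val : ℕ → Rg N) (v : CV) : Rg N :=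
  (v.map fun t => sev t.2 * val t.1).sum

@[simp] theorem cval_nil (val : ℕ → Rg N) : cval val [] = 0 := rfl

@[simp] theorem cval_cons (val : ℕ → Rg N) (t : ℕ × SP) (v : CV) :
    cval val (t :: v) = sev t.2 * val t.1 + cval val v := by simp [cval]

theorem cval_append (val : ℕ → Rg N) (a b : CV) :
    cval val (a ++ b) = cval val a + cval val b := by simp [cval]

theorem scaleCV_sound (val : ℕ → Rg N) (p : SP) : ∀ {v r : CV}, scaleCV N p v = some r →
    cval val r = sev p * cval val v
  | [], r, h => by simp only [scaleCV, Option.some.injEq] at h; subst h; simp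
  | t :: v, r, h => by
    simp only [scaleCV] at h
    split at h
    · rename_i x y hx hy
      cases h
      rw [cval_cons, cval_cons, scaleCV_sound val p hy,
        show sev x = sev p * sev t.2 from ev_mul _ List.length_ofFn hx]
      ring
    · simp at h

theorem subst_sound (M : List CV) (val : ℕ → Rg N) : ∀ {v r : CV}, subst N M v = some r →
    cval val r = cval (fun i => cval val (M.getD i [])) v
  | [], r, h => by simp only [subst, Option.some.injEq] at h; subst h; simp
  | t :: v, r, h => by
    simp only [subst] at h
    split at h
    · rename_i x y hx hy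
      cases h
      rw [cval_append, scaleCV_sound val _ hx, subst_sound M val hy, cval_cons]
    · simp at h

theorem sev_sumL_map (v : List (ℕ × SP)) :
    sev (N := N) (sumL (v.map Prod.snd)) = (v.map fun t => sev t.2).sum := by
  rw [sev, ev_sumL, List.map_map]; simp only [Function.comp_def, sev]

theorem cval_dense (val : ℕ → Rg N) (size : ℕ) : ∀ (v : CV), (∀ t ∈ v, t.1 < size) →
    cval val v = ∑ k ∈ range size, sev ((vecCV size v).getD k []) * val k := by
  intro v hv
  have e : ∀ k ∈ range size, sev (N := N) ((vecCV size v).getD k []) * val k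
      = ((v.filter fun t => t.1 == k).map fun t => sev t.2 * val t.1).sum := by
    intro k hk
    simp only [vecCV, List.getD_eq_getElem?_getD, List.getElem?_map,
      List.getElem?_range (Finset.mem_range.1 hk), Option.map_some, Option.getD_some]
    rw [sev_sumL_map, ← List.sum_map_mul_right]
    apply congrArg
    apply List.map_congr_left
    intro t ht
    rw [show t.1 = k by simpa using (List.mem_filter.1 ht).2]
  rw [sum_congr rfl e]
  clear e
  induction v with
  | nil => simp
  | cons t v ih =>
    rw [cval_cons, ih (fun s hs => hv s (by simp [hs]))]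
    have : ∀ k, (((t :: v).filter fun s => s.1 == k).map fun s => sev s.2 * val s.1).sum
        = (if t.1 = k then sev t.2 * val t.1 else 0)
          + ((v.filter fun s => s.1 == k).map fun s => sev s.2 * val s.1).sum := by
      intro k
      by_cases h : t.1 = k <;> simp [h]
    simp only [this, sum_add_distrib, Finset.sum_ite_eq, Finset.mem_range, hv t (by simp), if_true]

theorem eqv_sound (val : ℕ → Rg N) {size : ℕ} {A B : Option CV} (h : eqv size A B = true) :
    ∃ a b, A = some a ∧ B = some b ∧ cval val a = cval val b := by
  match A, B, h with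
  | some a, some b, h =>
    simp only [eqv, Bool.and_eq_true, List.all_eq_true, decide_eq_true_eq] at h
    refine ⟨a, b, rfl, rfl, ?_⟩
    rw [cval_dense val size a h.1.1, cval_dense val size b h.1.2, h.2]

variable (C : CertData)

/-- value of a basis vector -/
noncomputable def bval (r k : ℕ) : Rg N := xev ((basis N C r).getD k [])

/-- value of a generator -/
noncomputable def gval (r g : ℕ) : Rg N :=
  cval (bval C r) (((lvl C r).gens.map Prod.snd).getD g [])

theorem expCV_sound (hE : chkE N = true) (B : List SP) : ∀ {v : CV} {r : SP},
    expCV N B v = some r → xev (N := N) r = cval (fun k => xev (B.getD k [])) v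
  | [], r, h => by simp only [expCV, Option.some.injEq] at h; subst h; exact (ev_nil _).trans (cval_nil _).symm
  | t :: v, r, h => by
    simp only [expCV] at h
    split at h
    · rename_i c y hc hy
      simp only [Option.map_eq_some_iff] at h
      obtain ⟨x, hx, rfl⟩ := h
      rw [xev, ev_add]
      change xev x + xev y = _
      rw [show xev x = xev c * xev _ from ev_mul _ List.length_ofFn hx, expP_sound hE hc,
        expCV_sound hE B hy, cval_cons]
    · simp at h

theorem chkTab_sound (hE : chkE N = true) {w : ℕ} {B : List SP} {P : SP} {rhs : CV}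
    (h : chkTab N w B P rhs = true) :
    DRel w (xev (N := N) P) (cval (fun k => xev (B.getD k [])) rhs) := by
  simp only [chkTab] at h
  split at h
  · rename_i R G hR hG
    simp only [Bool.and_eq_true, List.all_eq_true, decide_eq_true_eq, List.mem_range] at h
    obtain ⟨⟨h1, h2⟩, h3⟩ := h
    refine ⟨fun c => xev (R.getD c []), fun i hi => by simp only [hi, h2], fun i j hij => ?_, ?_⟩
    · have hj := j.isLt
      have := chkStep_sound (N := N) (hi := show (i : ℕ) + 1 < N by omega) (h1 i (by omega))
      rw [show (⟨(i : ℕ) + 1, by omega⟩ : Fin N) = j from Fin.ext hij.symm] at this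
      show Step w i j (xev (R.getD i [])) (xev (R.getD j []))
      rw [hij]
      exact this
    · rw [← expCV_sound hE B hG, ← h3, xev, ev_sumL, List.map_map]
      rw [← List.sum_toFinset _ List.nodup_range']
      symm
      apply sum_bij (fun (c : Fin N) _ => (c : ℕ))
      · intro c hc
        have := c.isLt
        simp only [mem_filter] at hc
        rw [List.mem_toFinset, List.mem_range'_1]
        omega
      · intro a _ b _ e; exact Fin.ext e
      · intro b hb
        rw [List.mem_toFinset, List.mem_range'_1] at hb
        exact ⟨⟨b, by omega⟩, by simp [mem_filter]; omega, rfl⟩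
      · intros; rfl
  · simp at h

theorem DRel_cval {w : ℕ} {val val' : ℕ → Rg N} : ∀ v : CV,
    (∀ t ∈ v, DRel w (val t.1) (val' t.1)) → DRel w (cval val v) (cval val' v)
  | [], _ => by simpa using DRel.zero (N := N) w
  | t :: v, h => by
    rw [cval_cons, cval_cons]
    exact ((h t (by simp)).smul _ (fun i j => sev_sym i j _)).add
      (DRel_cval v fun s hs => h s (by simp [hs]))

/-- the certificate is correct -/
structure Valid (N : ℕ) (C : CertData) : Prop where
  expand : chkE N = true
  start : chkStart C = true
  tabs : ∀ w < N, chkTabs N C w = true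
  exts : ∀ w < N, chkExt N C w = true
  ops : ∀ w < N, chkOps N C w = true

/-- positive combinations of the generators of one window size, homogeneous of degree `n` -/
inductive Comb (C : CertData) (r : ℕ) : ℕ → Rg N → Prop
  | zero (n : ℕ) : Comb C r n 0
  | add {n P Q} : Comb C r n P → Comb C r n Q → Comb C r n (P + Q)
  | term (g m c : ℕ) (hg : g < (lvl C r).gens.length) :
      Comb C r (((lvl C r).gens.getD g (0, [])).1 + wE N 1 m)
        ((c : Rg N) * sev [(m, 1)] * gval C r g)

theorem Comb.of_posCV {r d : ℕ} : ∀ {v : CV}, posCV N d (lvl C r).gens v = true →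
    Comb C r d (cval (gval (N := N) C r) v)
  | [], _ => by simpa using Comb.zero d
  | t :: v, h => by
    simp only [posCV, List.all_cons, Bool.and_eq_true] at h
    rw [cval_cons]
    refine Comb.add ?_ (Comb.of_posCV h.2)
    obtain ⟨hg, hall⟩ := h.1
    generalize t.2 = p at hall ⊢
    induction p with
    | nil => simpa [sev] using Comb.zero d
    | cons s p ih =>
      simp only [List.all_cons, Bool.and_eq_true, decide_eq_true_eq] at hall hg
      rw [show sev (N := N) (s :: p) * gval C r t.1
        = ((s.2.toNat : ℕ) : Rg N) * sev [(s.1, 1)] * gval C r t.1 + sev p * gval C r t.1 by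
          rw [← Int.cast_natCast, Int.toNat_of_nonneg hall.1.1]; simp [sev]; ring]
      refine Comb.add ?_ (ih hall.2)
      rw [← hall.1.2]
      exact Comb.term t.1 s.1 s.2.toNat hg

end sound

end Vale.Agent.P066.Cert
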