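import Mathlib
import Vale.Agent.P066.Cert
import Vale.Agent.P066.Band

/-!
P066: a valid certificate for `N` colours gives coefficients in `ℕ[q]` at all partitions with parts
at most `N`, for every natural unit interval graph.
-/

namespace Vale.Agent.P066.Cert

open Finset Colour Sparse

variable {N : ℕ} (C : CertData)

/-- cone over `ℕ[q]` and the elementary symmetric polynomials on the generators of one size -/
inductive Cmb (C : CertData) (r : ℕ) : ℕ → Rg N → Prop
  | zero (n : ℕ) : Cmb C r n 0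
  | gen (g : ℕ) (hg : g < (lvl C r).gens.length) :
      Cmb C r ((lvl C r).gens.getD g (0, [])).1 (gval C r g)
  | add {n P Q} : Cmb C r n P → Cmb C r n Q → Cmb C r n (P + Q)
  | qmul {n P} : Cmb C r n P → Cmb C r n (qv N * P)
  | emul {n P} (k : ℕ) : Cmb C r n P →
      Cmb C r (n + k) (MvPolynomial.esymm (Fin N) (Polynomial ℤ) k * P)

theorem Cmb.of_eq {r n m : ℕ} {P Q : Rg N} (h : Cmb C r n P) (hn : n = m) (hP : P = Q) :
    Cmb C r m Q := by subst hn; subst hP; exact h

theorem Cmb.qpow {r n : ℕ} {P : Rg N} (h : Cmb C r n P) : ∀ a, Cmb C r n (qv N ^ a * P)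
  | 0 => h.of_eq C rfl (by simp)
  | a + 1 => (Cmb.qpow h a).qmul.of_eq C rfl (by ring)

theorem Cmb.epow {r n : ℕ} {P : Rg N} (k : ℕ) (h : Cmb C r n P) : ∀ a,
    Cmb C r (n + k * a) (MvPolynomial.esymm (Fin N) (Polynomial ℤ) k ^ a * P)
  | 0 => h.of_eq C (by simp) (by simp)
  | a + 1 => ((Cmb.epow k h a).emul k).of_eq C (by ring) (by ring)

theorem Cmb.evm_mul {r n : ℕ} {P : Rg N} (h : Cmb C r n P) : ∀ (k i m : ℕ),
    Cmb C r (n + wE k i m) (evm (qv N)
      ((List.range' i k).map (MvPolynomial.esymm (Fin N) (Polynomial ℤ))) m * P)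
  | 0, i, m => (h.qpow C m).of_eq C (by simp [wE]) (by simp [evm])
  | k + 1, i, m => by
    rw [List.range'_succ, List.map_cons, evm, wE]
    exact ((Cmb.evm_mul h k (i + 1) (m / 32)).epow C i (m % 32)).of_eq C (by ring) (by ring)

theorem esymm_list : (List.ofFn fun i : Fin N => MvPolynomial.esymm (Fin N) (Polynomial ℤ) (i + 1))
    = (List.range' 1 N).map (MvPolynomial.esymm (Fin N) (Polynomial ℤ)) := by
  apply List.ext_getElem
  · simp
  · intro k h1 h2
    simp [add_comm]

theorem Cmb.sev_mul {r n : ℕ} {P : Rg N} (h : Cmb C r n P) (m c : ℕ) :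
    Cmb C r (n + wE N 1 m) ((c : Rg N) * sev [(m, 1)] * P) := by
  induction c with
  | zero => exact (Cmb.zero _).of_eq C rfl (by simp)
  | succ c ih =>
    refine (ih.add (h.evm_mul C N 1 m)).of_eq C rfl ?_
    rw [← esymm_list]
    simp [sev]
    ring

theorem Cmb.of_comb {r n : ℕ} {P : Rg N} (h : Comb C r n P) : Cmb C r n P := by
  induction h with
  | zero n => exact Cmb.zero n
  | add _ _ a b => exact a.add b
  | term g m c hg => exact (Cmb.gen g hg).sev_mul C m c

theorem Cmb.map {r s k n : ℕ} {P : Rg N} {R : Rg N → Rg N → Prop} (h : Cmb C r n P)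
    (h0 : R 0 0) (hadd : ∀ {a b a' b'}, R a b → R a' b' → R (a + a') (b + b'))
    (hmul : ∀ (c : Rg N), (∀ i j, sR i j c = c) → ∀ {a b}, R a b → R (c * a) (c * b))
    (hgen : ∀ g, g < (lvl C r).gens.length →
      ∃ Q, Cmb C s (((lvl C r).gens.getD g (0, [])).1 + k) Q ∧ R (gval C r g) Q) :
    ∃ Q, Cmb C s (n + k) Q ∧ R P Q := by
  induction h with
  | zero n => exact ⟨0, Cmb.zero _, h0⟩
  | gen g hg => exact hgen g hg
  | add _ _ a b =>
    obtain ⟨Q, q1, q2⟩ := a
    obtain ⟨Q', q1', q2'⟩ := b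
    exact ⟨Q + Q', q1.add q1', hadd q2 q2'⟩
  | qmul _ a =>
    obtain ⟨Q, q1, q2⟩ := a
    exact ⟨qv N * Q, q1.qmul, hmul _ (fun i j => sR_q i j) q2⟩
  | emul j _ a =>
    obtain ⟨Q, q1, q2⟩ := a
    exact ⟨_, (q1.emul j).of_eq C (by omega) rfl,
      hmul _ (fun i j => by simp [sR, MvPolynomial.rename_esymm]) q2⟩

theorem gens_getD (r g : ℕ) :
    ((lvl C r).gens.map Prod.snd).getD g [] = ((lvl C r).gens.getD g (0, [])).2 :=
  by
  rw [List.getD_eq_getElem?_getD, List.getD_eq_getElem?_getD, List.getElem?_map]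
  cases (lvl C r).gens[g]? <;> rfl

theorem gval_subst (r : ℕ) {v b : CV}
    (h : subst N ((lvl C r).gens.map Prod.snd) v = some b) :
    cval (bval (N := N) C r) b = cval (gval C r) v :=
  subst_sound _ _ h

variable {C} (hC : Valid N C)

include hC

theorem tab_rel {w : ℕ} (hw : w < N) (k : ℕ) (hk : k < (lvl C (w + 1)).ks.length) :
    DRel w (bval (N := N) C (w + 1) k)
      (cval (bval C w) ((lvl C (w + 1)).tab.getD k [])) := by
  have h := hC.tabs w hw
  simp only [chkTabs, chkTabAt, Bool.and_eq_true, List.all_eq_true, List.mem_range] at h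
  exact chkTab_sound hC.expand (h.2 k hk).1

theorem ext_rel {w : ℕ} (hw : w < N) (k : ℕ) (hk : k < (lvl C w).ks.length) :
    bval (N := N) C w k * xv N ⟨w, hw⟩
        = cval (bval C (w + 1)) ((extM C w).getD k [])
      ∧ (lvl C w).ext.getD k 0 < (lvl C (w + 1)).ks.length := by
  have h := hC.exts w hw
  simp only [chkExt, Bool.and_eq_true, List.all_eq_true, List.mem_range, decide_eq_true_eq] at h
  obtain ⟨hlen, h⟩ := h
  obtain ⟨h1, h2⟩ := h k (by simpa [basis] using hk)
  refine ⟨?_, by simpa [basis] using h1⟩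
  have e : (extM C w).getD k [] = [((lvl C w).ext.getD k 0, [(0, 1)])] := by
    have : k < (lvl C w).ext.length := by
      rw [hlen]; simpa [basis] using hk
    simp [extM, List.getD_eq_getElem?_getD, this]
  rw [e, cval_cons, cval_nil, add_zero,
    show sev (N := N) [(0, 1)] = 1 by simp [sev, evm_zero], one_mul, bval, bval]
  have := ev_mul (q := qv N) (List.ofFn (xv N)) List.length_ofFn h2
  change xev _ = xev _ * xev _ at this
  rw [this, xev_unit w hw, mul_comm]

theorem gen_mem {r g : ℕ} (hr : r < N) (hg : g < (lvl C r).gens.length) :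
    ∀ t ∈ ((lvl C r).gens.getD g (0, [])).2, t.1 < (lvl C r).ks.length := by
  have h := hC.ops r hr
  simp only [chkOps, chkOp, Bool.and_eq_true, List.all_eq_true, List.mem_range, decide_eq_true_eq] at h
  exact (h g hg).1.1

theorem drop_gen {w g : ℕ} (hw : w + 1 < N) (hg : g < (lvl C (w + 1)).gens.length) :
    ∃ G, Cmb C w (((lvl C (w + 1)).gens.getD g (0, [])).1 + 0) G ∧
      DRel w (gval (N := N) C (w + 1) g) G := by
  have h := hC.ops (w + 1) hw
  simp only [chkOps, chkOp, Bool.and_eq_true, List.all_eq_true, List.mem_range, decide_eq_true_eq,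
    Bool.or_eq_true, Nat.succ_ne_zero, false_or, Nat.add_sub_cancel] at h
  obtain ⟨h1, h2⟩ := (h g hg).1.2
  obtain ⟨a, b, ha, hb, hab⟩ := eqv_sound (bval (N := N) C w) h2
  refine ⟨_, (Cmb.of_comb C (Comb.of_posCV C h1)).of_eq C (add_zero _).symm rfl, ?_⟩
  rw [← gval_subst C w hb, ← hab, subst_sound _ _ ha, gval, gens_getD]
  exact DRel_cval _ fun t ht => tab_rel hC (by omega) t.1 (gen_mem hC hw hg t ht)

theorem up_gen {w g : ℕ} (hw : w + 1 < N) (hg : g < (lvl C w).gens.length) :
    ∃ Q, Cmb C (w + 1) (((lvl C w).gens.getD g (0, [])).1 + 1) Q ∧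
      gval (N := N) C w g * xv N ⟨w, by omega⟩ = Q := by
  have h := hC.ops w (by omega)
  simp only [chkOps, chkOp, Bool.and_eq_true, List.all_eq_true, List.mem_range, if_pos hw] at h
  obtain ⟨h1, h2⟩ := (h g hg).2
  obtain ⟨a, b, ha, hb, hab⟩ := eqv_sound (bval (N := N) C (w + 1)) h2
  refine ⟨_, Cmb.of_comb C (Comb.of_posCV C h1), ?_⟩
  rw [← gval_subst C (w + 1) hb, ← hab, subst_sound _ _ ha, gval, gens_getD, cval, cval,
    ← List.sum_map_mul_right]
  refine congrArg List.sum (List.map_congr_left fun t ht => ?_)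
  rw [mul_assoc, (ext_rel hC (by omega) t.1 (gen_mem hC (by omega) hg t ht)).1]

theorem top_gen {w g : ℕ} (hw : w + 1 = N) (hg : g < (lvl C w).gens.length) :
    ∃ Q, Cmb C w (((lvl C w).gens.getD g (0, [])).1 + 1) Q ∧
      DRel w (gval (N := N) C w g * xv N ⟨w, by omega⟩) Q := by
  have h := hC.ops w (by omega)
  simp only [chkOps, chkOp, Bool.and_eq_true, List.all_eq_true, List.mem_range,
    if_neg (show ¬ w + 1 < N by omega)] at h
  obtain ⟨h1, h2⟩ := (h g hg).2
  obtain ⟨a, b, ha, hb, hab⟩ := eqv_sound (bval (N := N) C w) h2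
  refine ⟨_, Cmb.of_comb C (Comb.of_posCV C h1), ?_⟩
  obtain ⟨u, hu, hua⟩ := Option.bind_eq_some_iff.1 ha
  rw [← gval_subst C w hb, ← hab, subst_sound _ _ hua, subst_sound _ _ hu, gval, gens_getD]
  rw [show cval (bval (N := N) C w) ((lvl C w).gens.getD g (0, [])).2 * xv N ⟨w, by omega⟩
    = cval (fun k => bval C w k * xv N ⟨w, by omega⟩) ((lvl C w).gens.getD g (0, [])).2 by
      rw [cval, cval, ← List.sum_map_mul_right]; simp only [mul_assoc]]
  refine DRel_cval _ fun t ht => ?_
  obtain ⟨h3, h4⟩ := ext_rel hC (w := w) (by omega) t.1 (gen_mem hC (by omega) hg t ht)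
  rw [h3]
  refine DRel_cval _ fun s hs => ?_
  have hk : t.1 < (lvl C w).ext.length := by
    have h5 := hC.exts w (by omega)
    simp only [chkExt, Bool.and_eq_true, decide_eq_true_eq] at h5
    rw [h5.1]; simpa [basis] using gen_mem hC (by omega) hg t ht
  have hs' : s = ((lvl C w).ext.getD t.1 0, [(0, 1)]) := by
    simpa [extM, List.getD_eq_getElem?_getD, hk] using hs
  rw [hs']
  exact tab_rel hC (by omega) _ h4

omit hC

/-- a good state whose value at the lowest colours lies in the cone -/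
def Cone (C : CertData) (r n : ℕ) (F : (Fin r → Fin N) → Rg N) : Prop :=
  Good F ∧ ∃ hr : r ≤ N, ∃ P, Cmb C r n P ∧ base hr F = qv N ^ r.choose 2 * P

/-- invariant of a window -/
def Inv (C : CertData) (n : ℕ) : ∀ w, ((Fin w → Fin N) → Rg N) → Prop
  | 0, F => Cone C 0 n F
  | w + 1, F => Good F ∧ (w + 1 < N → Cone C (w + 1) n F) ∧ (w + 1 = N → Cone C w n (opF F))

theorem Good.zero {w : ℕ} : Good (fun _ : Fin w → Fin N => (0 : Rg N)) :=
  ⟨fun _ _ => rfl, fun _ _ _ _ _ _ => map_zero _, fun _ _ _ _ _ _ _ => by simp,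
    fun _ _ _ _ _ _ => by simp⟩

theorem Cone.zero {r n : ℕ} (hr : r ≤ N) (F : (Fin r → Fin N) → Rg N) (hF : ∀ t, F t = 0) :
    Cone C r n F := by
  have : F = fun _ => 0 := funext hF
  subst this
  exact ⟨Good.zero, hr, 0, Cmb.zero n, by simp [base]⟩

theorem Good.vanish {w : ℕ} (hw : N < w) {F : (Fin w → Fin N) → Rg N} (hF : Good F)
    (t : Fin w → Fin N) : F t = 0 :=
  hF.inj t fun h => absurd (Fintype.card_le_of_injective t h) (by simp; omega)

theorem choose_step (w : ℕ) : (w + 1).choose 2 = w + w.choose 2 := by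
  rw [Nat.choose_succ_succ, Nat.choose_one_right]

include hC

theorem Cone.forget {w n : ℕ} (hw : w + 1 < N) {F : (Fin (w + 1) → Fin N) → Rg N}
    (h : Cone C (w + 1) n F) : Cone C w n (opF F) := by
  obtain ⟨hF, hr, P, hP, hb⟩ := h
  obtain ⟨G, hG, hrel⟩ := hP.map C (R := DRel w) (s := w) (k := 0) (DRel.zero w) DRel.add
    (fun c hc _ _ p => p.smul c hc) (fun g hg => drop_gen hC hw hg)
  refine ⟨hF.opF, by omega, G, hG, ?_⟩
  apply mul_left_cancel₀ (pow_ne_zero w (qv_ne_zero N))
  rw [base_opF hr hF (G := qv N ^ (w + 1).choose 2 * G)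
    (hb ▸ hrel.smul _ (fun i j => by rw [map_pow, sR_q])), choose_step, pow_add, mul_assoc]

theorem Cone.extend {w n : ℕ} (hw : w < N) {F : (Fin w → Fin N) → Rg N} (h : Cone C w n F) :
    Inv C (n + 1) (w + 1) (Colour.opE F) := by
  obtain ⟨hF, hr, P, hP, hb⟩ := h
  refine ⟨hF.opE, fun hlt => ?_, fun heq => ?_⟩
  · obtain ⟨Q, hQ, hrel⟩ := hP.map C (R := fun a b => a * xv N ⟨w, hw⟩ = b) (s := w + 1) (k := 1)
      (zero_mul _) (fun p p' => by rw [← p, ← p', add_mul]) (fun c _ _ _ p => by rw [← p, mul_assoc])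
      (fun g hg => up_gen hC hlt hg)
    refine ⟨hF.opE, hlt.le, Q, hQ, ?_⟩
    rw [base_opE hlt.le F, hb, ← hrel, choose_step, pow_add]
    ring
  · obtain ⟨Q, hQ, hrel⟩ := hP.map C (R := fun a b => DRel w (a * xv N ⟨w, hw⟩) b) (s := w)
      (k := 1) (by simpa using DRel.zero (N := N) w) (fun p p' => by simpa [add_mul] using p.add p')
      (fun c hc _ _ p => by simpa [mul_assoc] using p.smul c hc) (fun g hg => top_gen hC heq hg)
    refine ⟨hF.opE.opF, hr, Q, hQ, ?_⟩
    apply mul_left_cancel₀ (pow_ne_zero w (qv_ne_zero N))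
    have hb' : base (show w + 1 ≤ N by omega) (Colour.opE F)
        = qv N ^ (w + 1).choose 2 * (P * xv N ⟨w, hw⟩) := by
      rw [base_opE (by omega) F, hb, choose_step, pow_add]
      ring
    rw [base_opF (show w + 1 ≤ N by omega) hF.opE (G := qv N ^ (w + 1).choose 2 * Q)
      (hb' ▸ hrel.smul _ (fun i j => by rw [map_pow, sR_q])), choose_step, pow_add, mul_assoc]

theorem Inv.forget {w n : ℕ} {F : (Fin (w + 1) → Fin N) → Rg N} (h : Inv C n (w + 1) F) :
    Inv C n w (opF F) := by
  obtain ⟨hF, h1, h2⟩ := h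
  have hc : w < N → Cone C w n (opF F) := by
    intro hw
    rcases (show w + 1 < N ∨ w + 1 = N by omega) with h | h
    · exact (h1 h).forget hC h
    · exact h2 h
  cases w with
  | zero =>
    rcases Nat.eq_zero_or_pos N with h0 | h0
    · exact Cone.zero (by omega) _ fun t => sum_eq_zero fun c _ => Good.vanish (by omega) hF _
    · exact hc h0
  | succ v =>
    exact ⟨hF.opF, fun hv => hc hv, fun hv => Cone.zero (by omega) _ fun t =>
      sum_eq_zero fun c _ => sum_eq_zero fun d _ => Good.vanish (by omega) hF _⟩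

theorem Inv.extend {w n : ℕ} {F : (Fin w → Fin N) → Rg N} (h : Inv C n w F) :
    Inv C (n + 1) (w + 1) (Colour.opE F) := by
  by_cases hw : w < N
  · cases w with
    | zero => exact (show Cone C 0 n F from h).extend hC hw
    | succ v => exact (h.2.1 hw).extend hC hw
  · have hF : Good F := by
      cases w with
      | zero => exact (show Cone C 0 n F from h).1
      | succ v => exact h.1
    exact ⟨hF.opE, fun h' => absurd h' (by omega), fun h' => absurd h' (by omega)⟩

theorem Inv.descend {e : ℕ → ℕ} {n t : ℕ} : ∀ {w : ℕ}, t ≤ w → ∀ {hw : w ≤ n}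
    {F : (Fin w → Fin N) → Rg N}, Ext e n w hw F → Inv C n w F →
    ∃ (ht : t ≤ n) (G : (Fin t → Fin N) → Rg N), Ext e n t ht G ∧ Inv C n t G
  | 0, h, hw, F, hE, hI => by
    obtain rfl : t = 0 := by omega
    exact ⟨hw, F, hE, hI⟩
  | w + 1, h, hw, F, hE, hI => by
    rcases (show t = w + 1 ∨ t ≤ w by omega) with rfl | ht
    · exact ⟨hw, F, hE, hI⟩
    · exact Inv.descend ht (hE.forget e) (hI.forget hC)

theorem start_cone : Cone (N := N) C 0 0 (fun _ => 1) := by
  have h := hC.start
  simp only [chkStart, Bool.and_eq_true, decide_eq_true_eq] at h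
  refine ⟨Good.of_empty 1 (fun i j => map_one _), Nat.zero_le _, 1, ?_, by simp [base]⟩
  refine (Cmb.gen (C := C) (r := 0) 0 (by simp [h.2])).of_eq C (by simp [h.2]) ?_
  simp [gval, bval, basis, h.1, h.2, bP, prodL, sev, xev, evm_zero, cval]

theorem window_inv (e : ℕ → ℕ) (he0 : e 0 = 0) (hstep : ∀ b, e (b + 1) ≤ e b + 1) :
    ∀ m, ∃ (w : ℕ) (hw : w ≤ m) (F : (Fin w → Fin N) → Rg N),
      Ext e m w hw F ∧ Inv C m w F ∧ e m ≤ w
  | 0 => ⟨0, le_rfl, fun _ => 1, Ext.start e, start_cone hC, by omega⟩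
  | m + 1 => by
    obtain ⟨w, hw, F, hE, hI, hem⟩ := window_inv e he0 hstep m
    obtain ⟨ht, G, hG, hJ⟩ := hI.descend hC hem hE
    exact ⟨e m + 1, by omega, Colour.opE G, hG.extend e rfl, hJ.extend hC, hstep m⟩

theorem Cmb_expansion {n : ℕ} {P : Rg N} (h : Cmb C 0 n P) :
    ∃ c : n.Partition → Polynomial ℕ,
      P = ∑ μ, MvPolynomial.C ((c μ).map (Nat.castRingHom ℤ))
        * MvPolynomial.esymmPart (Fin N) (Polynomial ℤ) μ := by
  induction h with
  | zero n => exact ⟨0, by simp⟩
  | gen g hg =>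
    have hs := hC.start
    simp only [chkStart, Bool.and_eq_true, decide_eq_true_eq] at hs
    obtain rfl : g = 0 := by simpa [hs.2] using hg
    have hd : ((lvl C 0).gens.getD 0 (0, [])).1 = 0 := by simp [hs.2]
    have hv : gval (N := N) C 0 0 = 1 := by
      simp [gval, bval, basis, hs.1, hs.2, bP, prodL, sev, xev, evm_zero, cval]
    rw [hd, hv]
    exact ⟨fun _ => 1, by simp [MvPolynomial.esymmPart]⟩
  | add _ _ a b =>
    obtain ⟨c, hc⟩ := a
    obtain ⟨d, hd⟩ := b
    exact ⟨c + d, by simp [hc, hd, add_mul, sum_add_distrib]⟩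
  | qmul _ a =>
    obtain ⟨c, hc⟩ := a
    exact ⟨fun μ => Polynomial.X * c μ, by simp [hc, mul_sum, mul_assoc]⟩
  | @emul n P k _ a =>
    obtain ⟨c, hc⟩ := a
    refine ⟨fun μ' => ∑ μ ∈ univ.filter (fun μ => addPart k μ = μ'), c μ, ?_⟩
    simp only [hc, mul_sum, Polynomial.map_sum, map_sum, sum_mul]
    rw [← sum_fiberwise univ (addPart k)]
    apply sum_congr rfl
    intro μ' _
    apply sum_congr rfl
    intro μ hμ
    rw [← (mem_filter.1 hμ).2, addPart, esymmPart_ofSums, Multiset.map_cons, Multiset.prod_cons,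
      MvPolynomial.esymmPart]
    ring

theorem S0_expansion (e : ℕ → ℕ) (he0 : e 0 = 0) (hstep : ∀ b, e (b + 1) ≤ e b + 1) (n : ℕ) :
    ∃ c : n.Partition → Polynomial ℕ,
      S0 e n N = ∑ μ, MvPolynomial.C ((c μ).map (Nat.castRingHom ℤ))
        * MvPolynomial.esymmPart (Fin N) (Polynomial ℤ) μ := by
  obtain ⟨w, hw, F, hE, hI, _⟩ := window_inv hC e he0 hstep n
  obtain ⟨h0, G, hG, hJ⟩ := hI.descend hC (Nat.zero_le w) hE
  obtain ⟨-, _, P, hP, hb⟩ := (show Cone C 0 n G from hJ)
  obtain ⟨c, hc⟩ := Cmb_expansion hC hP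
  refine ⟨c, ?_⟩
  rw [← hc, hG.total e]
  simpa [base, Subsingleton.elim (Fin.castLE (Nat.zero_le N)) Fin.elim0] using hb

/-- a valid certificate covers every natural unit interval graph -/
theorem expansion_of_cert (n : ℕ) (h : Fin n → Fin n) (hmono : Monotone h) :
    ∃ c : n.Partition → Polynomial ℕ,
      (∑ f ∈ (univ : Finset (Fin n → Fin N)).filter
          (fun f => ∀ a b, a < b → b ≤ h a → f a ≠ f b),
        MvPolynomial.C ((Polynomial.X : Polynomial ℤ) ^
          ((univ : Finset (Fin n × Fin n)).filter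
            (fun p => p.1 < p.2 ∧ p.2 ≤ h p.1 ∧ f p.1 < f p.2)).card)
          * ∏ a, MvPolynomial.X (f a))
      = ∑ μ : n.Partition, MvPolynomial.C ((c μ).map (Nat.castRingHom ℤ))
          * MvPolynomial.esymmPart (Fin N) (Polynomial ℤ) μ := by
  set H : ℕ → ℕ := fun a => if ha : a < n then (h ⟨a, ha⟩ : ℕ) else 0 with hH
  set e : ℕ → ℕ := fun b => ((range b).filter fun a => b ≤ H a).card with he
  have Hval : ∀ a : Fin n, H a = (h a : ℕ) := fun a => by simp [hH, a.isLt]
  have Hmono : ∀ a b, a ≤ b → b < n → H a ≤ H b := by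
    intro a b hab hb
    have := hmono (show (⟨a, by omega⟩ : Fin n) ≤ ⟨b, hb⟩ from hab)
    simpa [hH, hb, show a < n by omega] using this
  have hadj : ∀ a b : Fin n, ((a : ℕ) < b ∧ (b : ℕ) ≤ a + e b) ↔ (a < b ∧ b ≤ h a) := by
    intro a b
    have hb := b.isLt
    rw [Fin.lt_def, Fin.le_def]
    refine and_congr_right fun hab => ⟨fun h1 => ?_, fun h1 => ?_⟩
    · by_contra h2
      have hsub : (range (b : ℕ)).filter (fun c => (b : ℕ) ≤ H c) ⊆ Ico ((a : ℕ) + 1) b := by
        intro c hc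
        simp only [mem_filter, mem_range] at hc
        rw [mem_Ico]
        refine ⟨?_, hc.1⟩
        by_contra h3
        have := Hmono c a (by omega) a.isLt
        rw [Hval] at this
        omega
      have := card_le_card hsub
      rw [Nat.card_Ico] at this
      simp only [he] at h1
      omega
    · have hsub : Ico (a : ℕ) b ⊆ (range (b : ℕ)).filter (fun c => (b : ℕ) ≤ H c) := by
        intro c hc
        rw [mem_Ico] at hc
        simp only [mem_filter, mem_range]
        refine ⟨hc.2, ?_⟩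
        have := Hmono a c hc.1 (by omega)
        rw [Hval] at this
        omega
      have := card_le_card hsub
      rw [Nat.card_Ico] at this
      simp only [he]
      omega
  have hstep : ∀ b, e (b + 1) ≤ e b + 1 := by
    intro b
    simp only [he, range_add_one, filter_insert]
    have hsub : (range b).filter (fun a => b + 1 ≤ H a) ⊆ (range b).filter (fun a => b ≤ H a) := by
      intro a
      simp only [mem_filter]
      exact fun h => ⟨h.1, by omega⟩
    have := card_le_card hsub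
    split_ifs
    · exact (card_insert_le _ _).trans (by omega)
    · omega
  obtain ⟨c, hc⟩ := S0_expansion hC e (by simp [he]) hstep n
  refine ⟨c, ?_⟩
  rw [← hc, S0, sum_filter]
  apply sum_congr rfl
  intro f _
  split_ifs with hp
  · rw [cw, mul_comm, map_pow, card_filter, ← prod_pow_eq_pow_sum, Fintype.prod_prod_type,
      prod_comm]
    congr 1
    apply prod_congr rfl
    intro b _
    apply prod_congr rfl
    intro a _
    by_cases h1 : a < b ∧ b ≤ h a
    · rw [if_pos ((hadj a b).2 h1), kk, if_neg (hp a b h1.1 h1.2), qq]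
      by_cases h2 : f a < f b
      · rw [if_pos h2, if_pos ⟨h1.1, h1.2, h2⟩, pow_one]
      · rw [if_neg h2, if_neg (fun h3 => h2 h3.2.2), pow_zero]
    · rw [if_neg (mt (hadj a b).1 h1), if_neg (fun h2 => h1 ⟨h2.1, h2.2.1⟩), pow_zero]
  · push Not at hp
    obtain ⟨a, b, h1, h2, h3⟩ := hp
    rw [cw]
    refine (mul_eq_zero_of_right _ (prod_eq_zero (mem_univ b) ?_)).symm
    exact prod_eq_zero (mem_univ a) (by rw [if_pos ((hadj a b).2 ⟨h1, h2⟩), kk, if_pos h3])

omit hC

/-- index of a part among `N + 1` variables -/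
def idxN (N k : ℕ) : Fin (N + 1) := ⟨min (k - 1) N, by omega⟩

/-- the elementary products with parts at most `N + 1` are independent in `N + 1` variables -/
theorem var_unique (N : ℕ) {n : ℕ} (d : n.Partition → Polynomial ℤ)
    (h : ∑ μ : n.Partition,
      MvPolynomial.C (d μ) * MvPolynomial.esymmPart (Fin (N + 1)) (Polynomial ℤ) μ = 0)
    (μ₀ : n.Partition) (h₀ : ∀ k ∈ μ₀.parts, k ≤ N + 1) : d μ₀ = 0 := by
  classical
  set S := (univ : Finset n.Partition).filter (fun μ => ∀ k ∈ μ.parts, k ≤ N + 1) with hS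
  have hbig : ∀ μ : n.Partition, μ ∉ S →
      MvPolynomial.esymmPart (Fin (N + 1)) (Polynomial ℤ) μ = 0 := by
    intro μ hμ
    simp only [hS, mem_filter, mem_univ, true_and, not_forall] at hμ
    obtain ⟨k, hk, hk3⟩ := hμ
    apply Multiset.prod_eq_zero
    refine Multiset.mem_map.2 ⟨k, hk, ?_⟩
    rw [MvPolynomial.esymm, powersetCard_eq_empty.2 (by simp; omega), sum_empty]
  have hidx : ∀ k, 0 < k → k ≤ N + 1 → (idxN N k : ℕ) + 1 = k := by
    intro k h1 h2
    simp only [idxN]
    omega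
  set p : MvPolynomial (Fin (N + 1)) (Polynomial ℤ) :=
    ∑ μ ∈ S, MvPolynomial.monomial (Multiset.toFinsupp (μ.parts.map (idxN N))) (d μ) with hp
  have hp0 : p = 0 := by
    apply MvPolynomial.esymmAlgHom_fin_injective (R := Polynomial ℤ) (le_refl (N + 1))
    rw [map_zero]
    apply Subtype.ext
    rw [ZeroMemClass.coe_zero, MvPolynomial.esymmAlgHom_apply, hp, map_sum]
    conv_rhs => rw [← h, ← sum_subset (subset_univ S) (fun μ _ hμ => by rw [hbig μ hμ, mul_zero])]
    apply sum_congr rfl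
    intro μ hμ
    simp only [hS, mem_filter, mem_univ, true_and] at hμ
    rw [← mul_one (d μ), ← MvPolynomial.C_mul_monomial, ← prod_map_X, map_mul,
      MvPolynomial.aeval_C, map_multiset_prod, Multiset.map_map, Multiset.map_map, mul_one,
      MvPolynomial.esymmPart, MvPolynomial.algebraMap_eq]
    congr 2
    apply Multiset.map_congr rfl
    intro k hk
    simp only [Function.comp_apply, MvPolynomial.aeval_X, hidx k (μ.parts_pos hk) (hμ k hk)]
  have h1 := congrArg (MvPolynomial.coeff (Multiset.toFinsupp (μ₀.parts.map (idxN N)))) hp0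
  rw [hp, MvPolynomial.coeff_sum, MvPolynomial.coeff_zero, sum_eq_single μ₀] at h1
  · rwa [MvPolynomial.coeff_monomial, if_pos rfl] at h1
  · intro μ hμ hne
    rw [MvPolynomial.coeff_monomial, if_neg]
    intro heq
    apply hne
    apply Nat.Partition.ext
    simp only [hS, mem_filter, mem_univ, true_and] at hμ
    have heq' := Multiset.toFinsupp.injective heq
    have back : ∀ ν : n.Partition, (∀ k ∈ ν.parts, k ≤ N + 1) →
        ν.parts = (ν.parts.map (idxN N)).map (fun i : Fin (N + 1) => (i : ℕ) + 1) := by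
      intro ν hν
      rw [Multiset.map_map]
      conv_lhs => rw [← Multiset.map_id' ν.parts]
      exact Multiset.map_congr rfl fun k hk => (hidx k (ν.parts_pos hk) (hν k hk)).symm
    rw [back μ hμ, back μ₀ h₀, heq']
  · intro hnot
    exact absurd (by simp [hS]; exact h₀) hnot

end Vale.Agent.P066.Cert
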