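import Mathlib
import Vale.Agent.P066.Cert
import Vale.Agent.P066.Data5

/-!
P066: kernel check of part of the five-colour certificate.
-/

namespace Vale.Agent.P066.Cert.N5

theorem ops4_96 : (List.range' 96 12).all (chkOp 5 data 4) = true := by decide +kernel

end Vale.Agent.P066.Cert.N5
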