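import Mathlib
import Vale.Agent.P066.CertMain
import Vale.Agent.P066.Check5T0
import Vale.Agent.P066.Check5T1
import Vale.Agent.P066.Check5T2A
import Vale.Agent.P066.Check5T3A
import Vale.Agent.P066.Check5T3B
import Vale.Agent.P066.Check5T4A
import Vale.Agent.P066.Check5T4B
import Vale.Agent.P066.Check5O
import Vale.Agent.P066.Check5P
import Vale.Agent.P066.Check5Q
import Vale.Agent.P066.Check5R
import Vale.Agent.P066.Check5S
import Vale.Agent.P066.Check5U

/-!
P066: the five-colour certificate is valid.
-/

namespace Vale.Agent.P066.Cert.N5

theorem tabs2 : chkTabs 5 data 2 = true := by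
  refine chkTabs_of_list [List.range' 0 15, List.range' 15 15, List.range' 30 15, List.range' 45 15] (by decide +kernel) (by decide +kernel) ?_
  simp only [List.forall_mem_cons, List.not_mem_nil, IsEmpty.forall_iff, implies_true, and_true]
  exact ⟨tabchk2_0, tabchk2_15, tabchk2_30, tabchk2_45⟩

theorem tabs3 : chkTabs 5 data 3 = true := by
  refine chkTabs_of_list [List.range' 0 15, List.range' 15 15, List.range' 30 15, List.range' 45 15, List.range' 60 15, List.range' 75 15, List.range' 90 15, List.range' 105 15] (by decide +kernel) (by decide +kernel) ?_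
  simp only [List.forall_mem_cons, List.not_mem_nil, IsEmpty.forall_iff, implies_true, and_true]
  exact ⟨tabchk3_0, tabchk3_15, tabchk3_30, tabchk3_45, tabchk3_60, tabchk3_75, tabchk3_90, tabchk3_105⟩

theorem tabs4 : chkTabs 5 data 4 = true := by
  refine chkTabs_of_list [List.range' 0 15, List.range' 15 15, List.range' 30 15, List.range' 45 15, List.range' 60 15, List.range' 75 15, List.range' 90 15, List.range' 105 15] (by decide +kernel) (by decide +kernel) ?_
  simp only [List.forall_mem_cons, List.not_mem_nil, IsEmpty.forall_iff, implies_true, and_true]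
  exact ⟨tabchk4_0, tabchk4_15, tabchk4_30, tabchk4_45, tabchk4_60, tabchk4_75, tabchk4_90, tabchk4_105⟩

theorem ops4 : chkOps 5 data 4 = true := by
  refine chkOps_of_list [List.range' 0 12, List.range' 12 12, List.range' 24 12, List.range' 36 12, List.range' 48 12, List.range' 60 12, List.range' 72 12, List.range' 84 12, List.range' 96 12, List.range' 108 12] (by decide +kernel) ?_
  simp only [List.forall_mem_cons, List.not_mem_nil, IsEmpty.forall_iff, implies_true, and_true]
  exact ⟨ops4_0, ops4_12, ops4_24, ops4_36, ops4_48, ops4_60, ops4_72, ops4_84, ops4_96, ops4_108⟩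

theorem valid : Valid 5 data where
  expand := chkE_ok
  start := start_ok
  tabs w hw := by
    interval_cases w
    exacts [tabs0, tabs1, tabs2, tabs3, tabs4]
  exts := exts_ok
  ops w hw := by
    interval_cases w
    exacts [ops0 0 (by norm_num), ops0 1 (by norm_num), ops0 2 (by norm_num), ops3, ops4]

end Vale.Agent.P066.Cert.N5
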